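import Vale.Agent.P238.BasicIface

/-!
# P238: basic Fourier facts on the cube
-/

namespace Vale.Agent.P238

open Finset

variable {ι : Type*} [Fintype ι] [DecidableEq ι]

theorem sgn_sq (b : Bool) : sgn b * sgn b = 1 := by cases b <;> simp [sgn]

theorem sum_chi_mul_chi (x y : ι → Bool) :
    ∑ S : Finset ι, chi S x * chi S y = if x = y then 2 ^ Fintype.card ι else 0 := by
  have h : ∏ i : ι, (1 + sgn (x i) * sgn (y i)) = ∑ S : Finset ι, chi S x * chi S y := by
    rw [Finset.prod_one_add, Finset.powerset_univ]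
    refine Finset.sum_congr rfl fun S _ => ?_
    rw [chi, chi, ← Finset.prod_mul_distrib]
  rw [← h]
  split_ifs with hxy
  · subst hxy
    simp [sgn_sq, one_add_one_eq_two]
  · obtain ⟨i, hi⟩ := Function.ne_iff.1 hxy
    refine Finset.prod_eq_zero (Finset.mem_univ i) ?_
    cases hx : x i <;> cases hy : y i <;> simp_all [sgn]

theorem sum_coef_chi (f : (ι → Bool) → ℝ) (x : ι → Bool) :
    ∑ S : Finset ι, coef f S * chi S x = f x := by
  have h2 : (2 : ℝ) ^ Fintype.card ι ≠ 0 := by positivity
  simp only [coef, avg, div_mul_eq_mul_div, Finset.sum_mul, ← Finset.sum_div]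
  rw [Finset.sum_comm]
  simp only [mul_assoc, ← Finset.mul_sum, sum_chi_mul_chi, mul_ite, mul_zero,
    Finset.sum_ite_eq', Finset.mem_univ, if_true]
  field_simp

theorem parseval (f g : (ι → Bool) → ℝ) :
    ∑ S, coef f S * coef g S = avg fun x => f x * g x := by
  have h : ∀ S, coef f S * coef g S = avg fun x => g x * (coef f S * chi S x) := by
    intro S
    simp only [coef, avg, Finset.mul_sum, mul_div_assoc']
    congr 1
    exact Finset.sum_congr rfl fun x _ => by ring
  simp only [h]
  unfold avg
  rw [← Finset.sum_div, Finset.sum_comm]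
  simp only [← Finset.mul_sum, sum_coef_chi]
  congr 1
  exact Finset.sum_congr rfl fun x _ => mul_comm _ _

/-- The action of a permutation of positions on the cube. -/
def permEquiv (p : ι ≃ ι) : (ι → Bool) ≃ (ι → Bool) where
  toFun x := x ∘ p
  invFun x := x ∘ p.symm
  left_inv x := by funext i; simp
  right_inv x := by funext i; simp


theorem avg_perm (p : ι ≃ ι) (g : (ι → Bool) → ℝ) :
    avg (fun x => g (x ∘ p)) = avg g := by
  unfold avg
  congr 1
  exact Equiv.sum_comp (permEquiv p) g

theorem coef_perm (f : (ι → Bool) → ℝ) (p : ι ≃ ι) (S : Finset ι) :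
    coef (fun x => f (x ∘ p)) S = coef f (S.map p.symm.toEmbedding) := by
  rw [coef, coef, ← avg_perm p (fun y => f y * chi (S.map p.symm.toEmbedding) y)]
  simp [chi, Finset.prod_map]

theorem flipAt_invol (i : ι) : Function.Involutive (flipAt i) := by
  intro x
  funext j
  rcases eq_or_ne j i with rfl | h <;> simp [flipAt, *]

theorem avg_flip (i : ι) (g : (ι → Bool) → ℝ) : avg (fun x => g (flipAt i x)) = avg g := by
  unfold avg
  congr 1
  exact Equiv.sum_comp ((flipAt_invol i).toPerm _) g

theorem chi_flip (i : ι) (S : Finset ι) (x : ι → Bool) :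
    chi S (flipAt i x) = (if i ∈ S then -1 else 1) * chi S x := by
  unfold chi
  split_ifs with h
  · rw [← Finset.mul_prod_erase S _ h, ← Finset.mul_prod_erase S _ h]
    have h1 : ∏ j ∈ S.erase i, sgn (flipAt i x j) = ∏ j ∈ S.erase i, sgn (x j) :=
      Finset.prod_congr rfl fun j hj => by simp [flipAt, Finset.ne_of_mem_erase hj]
    rw [h1, ← mul_assoc]
    congr 1
    cases hx : x i <;> simp [flipAt, sgn, hx]
  · rw [one_mul]
    refine Finset.prod_congr rfl fun j hj => ?_
    have : j ≠ i := fun e => h (e ▸ hj)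
    simp [flipAt, this]

theorem coef_flip (f : (ι → Bool) → ℝ) (i : ι) (S : Finset ι) :
    coef (fun x => f (flipAt i x)) S = (if i ∈ S then -1 else 1) * coef f S := by
  rw [coef, coef, ← avg_flip i (fun x => f x * chi S x)]
  simp only [chi_flip, avg]
  rw [← mul_div_assoc, Finset.mul_sum]
  congr 1
  refine Finset.sum_congr rfl fun x _ => ?_
  split_ifs <;> ring

theorem coef_sub (f g : (ι → Bool) → ℝ) (S : Finset ι) :
    coef (fun x => f x - g x) S = coef f S - coef g S := by
  simp [coef, avg, sub_mul, Finset.sum_sub_distrib, sub_div]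

theorem infl_eq (f : (ι → Bool) → ℝ) (hf : Boolean01 f) (i : ι) :
    infl f i = 4 * mass f (fun S => i ∈ S) := by
  have h1 : infl f i = avg fun x => (f x - f (flipAt i x)) * (f x - f (flipAt i x)) := by
    unfold infl
    congr 1
    funext x
    rcases hf x with a | a <;> rcases hf (flipAt i x) with b | b <;> simp [a, b]
  rw [h1, ← parseval]
  simp only [coef_sub, coef_flip, mass, Finset.mul_sum, Finset.sum_filter]
  refine Finset.sum_congr rfl fun S _ => ?_
  split_ifs <;> ring

theorem infl_sum (f : (ι → Bool) → ℝ) (hf : Boolean01 f) :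
    ∑ i, infl f i = 4 * ∑ S : Finset ι, (S.card : ℝ) * coef f S ^ 2 := by
  simp only [infl_eq f hf, mass, Finset.sum_filter, ← Finset.mul_sum]
  rw [Finset.sum_comm]
  congr 1
  refine Finset.sum_congr rfl fun S _ => ?_
  rw [← Finset.sum_filter]
  simp

theorem basic : BasicStmt := fun _ _ _ f g =>
  ⟨parseval f g, coef_perm f, coef_flip f, fun x => (sum_coef_chi f x).symm,
    infl_eq f, infl_sum f⟩

end Vale.Agent.P238
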