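import Vale.Agent.P238.Defs

/-!
# P238: interface of the basic Fourier facts
-/

namespace Vale.Agent.P238

open Finset

/-- Parseval, behaviour under permutations and flips. -/
def BasicStmt : Prop :=
  ∀ (ι : Type) [Fintype ι] [DecidableEq ι] (f g : (ι → Bool) → ℝ),
    (∑ S, coef f S * coef g S = avg fun x => f x * g x) ∧
    (∀ (p : ι ≃ ι) (S : Finset ι),
      coef (fun x => f (x ∘ p)) S = coef f (S.map p.symm.toEmbedding)) ∧
    (∀ (i : ι) (S : Finset ι),
      coef (fun x => f (flipAt i x)) S = (if i ∈ S then -1 else 1) * coef f S) ∧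
    (∀ x, f x = ∑ S, coef f S * chi S x) ∧
    (Boolean01 f → ∀ i, infl f i = 4 * mass f (fun S => i ∈ S)) ∧
    (Boolean01 f → (∑ i, infl f i) = 4 * ∑ S : Finset ι, (S.card : ℝ) * coef f S ^ 2)

end Vale.Agent.P238
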