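import Vale.Agent.P063.FourProduct

/-!
A block inequality for the edit-distance lower bound: a Boolean function on a cyclic block of
length `R` whose variance is large must have large total influence or must be sensitive to the
rotation of the block.
-/

open Finset
open scoped Classical
open Vale.Agent.P063

namespace Vale.Agent.P238.KKL

set_option linter.unusedSectionVars false

variable {ι : Type} [Fintype ι]

/-- The mass moved by one coordinate. -/
noncomputable def inf1 (f : (ι → Bool) → ℝ) (i : ι) : ℝ :=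
  ev (1 / 2) fun x => |f (Function.update x i true) - f (Function.update x i false)|

lemma half_pos' : (0 : ℝ) < 1 / 2 := by norm_num

lemma half_lt_one' : (1 / 2 : ℝ) < 1 := by norm_num

lemma sqrt_half : Real.sqrt ((1 / 2 : ℝ) * (1 - 1 / 2)) = 1 / 2 := by
  rw [show ((1 / 2 : ℝ) * (1 - 1 / 2)) = (1 / 2) ^ 2 by norm_num]
  exact Real.sqrt_sq (by norm_num)

lemma phi_half (b : Bool) : phi (1 / 2 : ℝ) b = if b then 1 else -1 := by
  cases b <;> simp only [phi, sqrt_half] <;> norm_num

lemma base_half : base (1 / 2 : ℝ) = 76 := by simp only [base]; norm_num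

lemma inf1_nonneg (f : (ι → Bool) → ℝ) (i : ι) : 0 ≤ inf1 f i :=
  ev_nonneg (by norm_num) (by norm_num) fun _ => abs_nonneg _

/-- The derivative in coordinate `i`, multiplied by the character of `i`. -/
noncomputable def deriv (f : (ι → Bool) → ℝ) (i : ι) (x : ι → Bool) : ℝ :=
  phi (1 / 2) (x i) *
    ((1 / 2) * (f (Function.update x i true) - f (Function.update x i false)))

lemma coef_deriv (f : (ι → Bool) → ℝ) (i : ι) (S : Finset ι) :
    coef (1 / 2) (deriv f i) S = if i ∈ S then coef (1 / 2) f S else 0 := by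
  have h : deriv f i =
      fun x => ∑ T, (if i ∈ T then coef (1 / 2) f T else 0) * chi (1 / 2) T x := by
    funext x
    have hd := deriv_expansion half_pos' half_lt_one' f i x
    rw [sqrt_half] at hd
    rw [deriv, hd, mul_sum]
    refine sum_congr rfl fun T _ => ?_
    by_cases hi : i ∈ T
    · rw [if_pos hi, if_pos hi, chi_def T, ← mul_prod_erase T _ hi, ← chi_def]
      ring
    · simp [if_neg hi]
  rw [h, coef_expansion half_pos' half_lt_one']

lemma abs_deriv (f : (ι → Bool) → ℝ) (i : ι) (x : ι → Bool) :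
    |deriv f i x| =
      (1 / 2) * |f (Function.update x i true) - f (Function.update x i false)| := by
  rw [deriv, abs_mul, abs_mul, phi_half]
  cases x i <;> norm_num

lemma deriv_sq_le (P : (ι → Bool) → Bool) (i : ι) (x : ι → Bool) :
    deriv (ind P) i x ^ 2 ≤ |deriv (ind P) i x| := by
  have h1 : |deriv (ind P) i x| ≤ 1 := by
    rw [abs_deriv, ind, ind]
    split_ifs <;> norm_num
  calc deriv (ind P) i x ^ 2 = |deriv (ind P) i x| * |deriv (ind P) i x| := by
        rw [← sq, sq_abs]
    _ ≤ |deriv (ind P) i x| * 1 := mul_le_mul_of_nonneg_left h1 (abs_nonneg _)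
    _ = |deriv (ind P) i x| := mul_one _

lemma ev_abs_deriv (f : (ι → Bool) → ℝ) (i : ι) :
    ev (1 / 2) (fun x => |deriv f i x|) = (1 / 2) * inf1 f i := by
  simp only [abs_deriv]
  exact ev_mul_left _ _

/-- The low-degree weight through one coordinate. -/
lemma low_weight_le (P : (ι → Bool) → Bool) (i : ι) (D : ℕ) :
    (∑ S : Finset ι, if i ∈ S ∧ S.card ≤ D then coef (1 / 2) (ind P) S ^ 2 else 0) ≤
      (1 / 2) * inf1 (ind P) i * Real.sqrt ((1 / 2) * inf1 (ind P) i * 76 ^ D) := by
  set f := ind P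
  set a : ℝ := (1 / 2) * inf1 f i with ha
  set w : ℝ := ∑ S : Finset ι, if i ∈ S ∧ S.card ≤ D then coef (1 / 2) f S ^ 2 else 0
    with hw
  have ha0 : 0 ≤ a := mul_nonneg (by norm_num) (inf1_nonneg f i)
  obtain ⟨L, hL⟩ : ∃ L : (ι → Bool) → ℝ, L = fun x => ∑ S,
      (if i ∈ S ∧ S.card ≤ D then coef (1 / 2) f S else 0) * chi (1 / 2) S x := ⟨_, rfl⟩
  have hcL : ∀ S, coef (1 / 2) L S =
      if i ∈ S ∧ S.card ≤ D then coef (1 / 2) f S else 0 := fun S => by
    rw [hL, coef_expansion half_pos' half_lt_one']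
  have hL2 : ev (1 / 2) (fun x => L x ^ 2) = w := by
    rw [parseval half_pos' half_lt_one', hw]
    refine sum_congr rfl fun S _ => ?_
    rw [hcL]
    split_ifs <;> ring
  have hgL : ev (1 / 2) (fun x => deriv f i x * L x) = w := by
    rw [parseval_mul half_pos' half_lt_one', hw]
    refine sum_congr rfl fun S _ => ?_
    rw [hcL, coef_deriv]
    by_cases h : i ∈ S ∧ S.card ≤ D
    · rw [if_pos h, if_pos h, if_pos h.1]; ring
    · rw [if_neg h, if_neg h, mul_zero]
  have hL4 : ev (1 / 2) (fun x => L x ^ 4) ≤ 76 ^ D * w ^ 2 := by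
    have h := bonami half_pos' half_lt_one' (univ : Finset ι) D L fun S hS => by
      rw [hcL] at hS
      refine ⟨subset_univ S, ?_⟩
      by_contra hc
      exact hS (if_neg fun hh => hc hh.2)
    rwa [hL2, base_half] at h
  have hw0 : 0 ≤ w := by rw [← hL2]; exact ev_nonneg (by norm_num) (by norm_num) fun x => sq_nonneg _
  set u : ℝ := ev (1 / 2) (fun x => |deriv f i x| * L x ^ 2) with hu
  have hu0 : 0 ≤ u := ev_nonneg (by norm_num) (by norm_num) fun x =>
    mul_nonneg (abs_nonneg _) (sq_nonneg _)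
  have h1 : w ^ 2 ≤ a * u := by
    have hwabs : w ≤ ev (1 / 2) (fun x =>
        Real.sqrt |deriv f i x| * (Real.sqrt |deriv f i x| * |L x|)) := by
      rw [← hgL]
      refine ev_mono (by norm_num) (by norm_num) fun x => ?_
      rw [← mul_assoc, Real.mul_self_sqrt (abs_nonneg _), ← abs_mul]
      exact le_abs_self _
    calc w ^ 2 ≤ _ ^ 2 := pow_le_pow_left₀ hw0 hwabs 2
      _ ≤ _ := ev_cauchy half_pos' half_lt_one' _ _
      _ = a * u := by
          simp only [mul_pow, Real.sq_sqrt (abs_nonneg _), sq_abs]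
          rw [ev_abs_deriv]
  have h2 : u ^ 2 ≤ a * (76 ^ D * w ^ 2) := by
    calc u ^ 2 ≤ ev (1 / 2) (fun x => |deriv f i x| ^ 2) *
          ev (1 / 2) (fun x => (L x ^ 2) ^ 2) := ev_cauchy half_pos' half_lt_one' _ _
      _ ≤ a * (76 ^ D * w ^ 2) := by
          refine mul_le_mul ?_ ?_ (ev_nonneg (by norm_num) (by norm_num) fun x => sq_nonneg _) ha0
          · rw [ha, ← ev_abs_deriv]
            refine ev_mono (by norm_num) (by norm_num) fun x => ?_
            rw [sq_abs]
            exact deriv_sq_le P i x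
          · simpa [← pow_mul] using hL4
  have hu' : u ≤ w * Real.sqrt (a * 76 ^ D) := by
    have := Real.abs_le_sqrt h2
    rw [abs_of_nonneg hu0, show a * (76 ^ D * w ^ 2) = w ^ 2 * (a * 76 ^ D) by ring,
      Real.sqrt_mul (sq_nonneg _), Real.sqrt_sq hw0] at this
    exact this
  rcases hw0.eq_or_lt with h0 | hpos
  · rw [← h0]; positivity
  · refine le_of_mul_le_mul_left ?_ hpos
    nlinarith [mul_le_mul_of_nonneg_left hu' ha0]

/-- The Fourier weight above degree zero, split at degree `D`. -/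
lemma var_le_sum (P : (ι → Bool) → Bool) (D : ℕ) (M : ℝ)
    (hM : ∀ i, inf1 (ind P) i ≤ M) :
    ev (1 / 2) (ind P) - ev (1 / 2) (ind P) ^ 2 ≤
      (∑ i, inf1 (ind P) i) * ((1 / 2) * Real.sqrt ((1 / 2) * M * 76 ^ D) + 1 / (D + 1)) := by
  set f := ind P with hf
  have hD : (0 : ℝ) < D + 1 := by positivity
  have hvar : ev (1 / 2) f - ev (1 / 2) f ^ 2 =
      ∑ S : Finset ι, if S = ∅ then 0 else coef (1 / 2) f S ^ 2 := by
    have h := parseval half_pos' half_lt_one' f
    rw [show (fun x => f x ^ 2) = f from funext fun x => ind_sq P x] at h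
    have h0 : coef (1 / 2) f ∅ = ev (1 / 2) f := coef_empty f
    rw [← h0]
    rw [h0]
    nth_rewrite 1 [h]
    rw [← h0]
    rw [← sum_erase_add _ _ (mem_univ (∅ : Finset ι))]
    rw [← sum_erase_add (f := fun S : Finset ι => if S = ∅ then (0 : ℝ) else coef (1 / 2) f S ^ 2)
      _ (mem_univ (∅ : Finset ι))]
    have he : ∑ S ∈ (univ : Finset (Finset ι)).erase ∅, coef (1 / 2) f S ^ 2 =
        ∑ S ∈ (univ : Finset (Finset ι)).erase ∅,
          if S = ∅ then (0 : ℝ) else coef (1 / 2) f S ^ 2 :=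
      sum_congr rfl fun S hS => (if_neg (ne_of_mem_erase hS)).symm
    rw [he]
    simp
  have hall : ∀ i, ∑ S : Finset ι, (if i ∈ S then coef (1 / 2) f S ^ 2 else 0) ≤
      (1 / 2) * inf1 f i := by
    intro i
    calc _ = ev (1 / 2) (fun x => deriv f i x ^ 2) := by
          rw [parseval half_pos' half_lt_one']
          refine sum_congr rfl fun S _ => ?_
          rw [coef_deriv]
          split_ifs <;> ring
      _ ≤ ev (1 / 2) (fun x => |deriv f i x|) :=
          ev_mono (by norm_num) (by norm_num) (deriv_sq_le P i)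
      _ = (1 / 2) * inf1 f i := ev_abs_deriv f i
  have hpt : ∀ S : Finset ι, (if S = ∅ then 0 else coef (1 / 2) f S ^ 2) ≤
      ∑ i, ((if i ∈ S ∧ S.card ≤ D then coef (1 / 2) f S ^ 2 else 0) +
        1 / ((D : ℝ) + 1) * (if i ∈ S then coef (1 / 2) f S ^ 2 else 0)) := by
    intro S
    rw [sum_add_distrib, ← mul_sum, sum_ite_mem, univ_inter, sum_const, nsmul_eq_mul]
    have hsq := sq_nonneg (coef (1 / 2) f S)
    rcases S.eq_empty_or_nonempty with rfl | hne
    · simp
    · rw [if_neg hne.ne_empty]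
      have h1 : (1 : ℝ) ≤ S.card := by exact_mod_cast hne.card_pos
      by_cases hc : S.card ≤ D
      · simp only [hc, and_true, sum_ite_mem, univ_inter, sum_const, nsmul_eq_mul]
        have : 0 ≤ 1 / ((D : ℝ) + 1) * ((S.card : ℝ) * coef (1 / 2) f S ^ 2) := by positivity
        nlinarith
      · simp only [hc, and_false, if_false, sum_const_zero, zero_add]
        have h2 : (D : ℝ) + 1 ≤ S.card := by exact_mod_cast Nat.succ_le_of_lt (not_le.1 hc)
        rw [← mul_assoc]
        refine le_mul_of_one_le_left hsq ?_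
        rw [one_div_mul_eq_div, le_div_iff₀ hD, one_mul]
        exact h2
  rw [hvar]
  calc _ ≤ _ := sum_le_sum fun S _ => hpt S
    _ = ∑ i, ((∑ S : Finset ι, if i ∈ S ∧ S.card ≤ D then coef (1 / 2) f S ^ 2 else 0) +
        1 / ((D : ℝ) + 1) * ∑ S : Finset ι, (if i ∈ S then coef (1 / 2) f S ^ 2 else 0)) := by
          rw [sum_comm]
          simp only [sum_add_distrib, mul_sum]
    _ ≤ ∑ i, inf1 f i * ((1 / 2) * Real.sqrt ((1 / 2) * M * 76 ^ D) + 1 / (D + 1)) := by
          refine sum_le_sum fun i _ => ?_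
          have hs : Real.sqrt ((1 / 2) * inf1 f i * 76 ^ D) ≤
              Real.sqrt ((1 / 2) * M * 76 ^ D) := by
            gcongr
            exact hM i
          have h1 := low_weight_le P i D
          have h2 := hall i
          have hn := inf1_nonneg f i
          have h3 : (1 / 2) * inf1 f i * Real.sqrt ((1 / 2) * inf1 f i * 76 ^ D) ≤
              (1 / 2) * inf1 f i * Real.sqrt ((1 / 2) * M * 76 ^ D) := by gcongr
          have h4 : 1 / ((D : ℝ) + 1) *
              ∑ S : Finset ι, (if i ∈ S then coef (1 / 2) f S ^ 2 else 0) ≤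
              1 / ((D : ℝ) + 1) * inf1 f i := by
            refine mul_le_mul_of_nonneg_left ?_ (by positivity)
            linarith
          linarith
    _ = _ := by rw [sum_mul]

/-- A relabelling of the coordinates. -/
def pull (σ : ι ≃ ι) (x : ι → Bool) : ι → Bool := fun i => x (σ i)

lemma ev_half_comp (e : (ι → Bool) ≃ (ι → Bool)) (h : (ι → Bool) → ℝ) :
    ev (1 / 2) (fun x => h (e x)) = ev (1 / 2) h := by
  have hw : ∀ x : ι → Bool, wt (1 / 2 : ℝ) x = (1 / 2) ^ Fintype.card ι := by
    intro x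
    rw [wt, ← card_univ, ← prod_const]
    refine prod_congr rfl fun i _ => ?_
    split_ifs <;> norm_num
  simp only [ev, hw]
  exact Equiv.sum_comp e fun x => (1 / 2 : ℝ) ^ Fintype.card ι * h x

/-- The defect of a function under a relabelling. -/
noncomputable def defect (σ : ι ≃ ι) (f : (ι → Bool) → ℝ) : ℝ :=
  ev (1 / 2) fun x => |f x - f (pull σ x)|

lemma defect_nonneg (σ : ι ≃ ι) (f : (ι → Bool) → ℝ) : 0 ≤ defect σ f :=
  ev_nonneg (by norm_num) (by norm_num) fun _ => abs_nonneg _

lemma inf1_step (σ : ι ≃ ι) (f : (ι → Bool) → ℝ) (i : ι) :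
    inf1 f i ≤ inf1 f (σ i) + 2 * defect σ f := by
  let T : (ι → Bool) ≃ (ι → Bool) := σ.symm.arrowCongr (Equiv.refl Bool)
  have hT : ∀ x, T x = pull σ x := fun x => by funext j; rfl
  have hupd : ∀ x b, pull σ (Function.update x (σ i) b) =
      Function.update (pull σ x) i b := by
    intro x b
    funext j
    by_cases hj : j = i
    · subst hj; simp [pull]
    · rw [Function.update_of_ne hj]
      show Function.update x (σ i) b (σ j) = x (σ j)
      rw [Function.update_of_ne (fun h => hj (σ.injective h))]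
  have e : ev (1 / 2) (fun x => |f (pull σ (Function.update x (σ i) true)) -
      f (pull σ (Function.update x (σ i) false))|) = inf1 f i := by
    simp only [hupd, ← hT]
    exact ev_half_comp T fun y =>
      |f (Function.update y i true) - f (Function.update y i false)|
  have hsum : ev (1 / 2) (fun x => |f (Function.update x (σ i) true) -
      f (pull σ (Function.update x (σ i) true))|) +
      ev (1 / 2) (fun x => |f (Function.update x (σ i) false) -
        f (pull σ (Function.update x (σ i) false))|) = 2 * defect σ f := by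
    rw [defect, ev_split half_pos' half_lt_one' (fun x => |f x - f (pull σ x)|) (σ i)]
    ring
  have tri : inf1 f i ≤ ev (1 / 2) (fun x =>
      |f (Function.update x (σ i) true) - f (pull σ (Function.update x (σ i) true))| +
      (|f (Function.update x (σ i) true) - f (Function.update x (σ i) false)| +
      |f (Function.update x (σ i) false) - f (pull σ (Function.update x (σ i) false))|)) := by
    rw [← e]
    refine ev_mono (by norm_num) (by norm_num) fun x => ?_
    have hh := abs_sub_le (f (pull σ (Function.update x (σ i) true)))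
      (f (Function.update x (σ i) true)) (f (pull σ (Function.update x (σ i) false)))
    have hk := abs_sub_le (f (Function.update x (σ i) true))
      (f (Function.update x (σ i) false)) (f (pull σ (Function.update x (σ i) false)))
    rw [abs_sub_comm (f (pull σ (Function.update x (σ i) true)))
      (f (Function.update x (σ i) true))] at hh
    linarith
  rw [ev_add, ev_add] at tri
  change inf1 f i ≤ ev (1 / 2) (fun x => |f (Function.update x (σ i) true) -
      f (pull σ (Function.update x (σ i) true))|) + (inf1 f (σ i) +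
      ev (1 / 2) (fun x => |f (Function.update x (σ i) false) -
        f (pull σ (Function.update x (σ i) false))|)) at tri
  linarith

lemma inf1_iterate (σ : ι ≃ ι) (f : (ι → Bool) → ℝ) (i : ι) (k : ℕ) :
    inf1 f i ≤ inf1 f ((⇑σ)^[k] i) + 2 * k * defect σ f := by
  induction k with
  | zero => simp
  | succ k ih =>
    rw [Function.iterate_succ_apply']
    have := inf1_step σ f ((⇑σ)^[k] i)
    push_cast
    linarith

lemma finRotate_iterate_val {n : ℕ} (i : Fin (n + 1)) (k : ℕ) :
    ((⇑(finRotate (n + 1)))^[k] i : Fin (n + 1)).val = (i.val + k) % (n + 1) := by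
  induction k with
  | zero => simp [Nat.mod_eq_of_lt i.isLt]
  | succ k ih =>
    rw [Function.iterate_succ_apply', finRotate_apply, Fin.val_add, ih, Fin.val_one',
      Nat.add_mod_mod, Nat.mod_add_mod, Nat.add_assoc]

/-- No coordinate is much more influential than a window of its rotates. -/
lemma inf1_window {R : ℕ} (f : (Fin R → Bool) → ℝ) (i : Fin R) (w : ℕ) (hw : w ≤ R) :
    (w : ℝ) * inf1 f i ≤ (∑ j, inf1 f j) + 2 * (w : ℝ) ^ 2 * defect (finRotate R) f := by
  obtain ⟨n, rfl⟩ : ∃ n, R = n + 1 := ⟨R - 1, by have := i.isLt; omega⟩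
  have hd := defect_nonneg (finRotate (n + 1)) f
  calc (w : ℝ) * inf1 f i = ∑ _k ∈ range w, inf1 f i := by simp
    _ ≤ ∑ k ∈ range w, (inf1 f ((⇑(finRotate (n + 1)))^[k] i) + 2 * w * defect (finRotate (n + 1)) f) := by
        refine sum_le_sum fun k hk => (inf1_iterate (finRotate (n + 1)) f i k).trans ?_
        have : (k : ℝ) ≤ w := by exact_mod_cast (mem_range.1 hk).le
        nlinarith
    _ = (∑ k ∈ range w, inf1 f ((⇑(finRotate (n + 1)))^[k] i)) +
          2 * (w : ℝ) ^ 2 * defect (finRotate (n + 1)) f := by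
        rw [sum_add_distrib, sum_const, card_range, nsmul_eq_mul]; ring
    _ ≤ _ := by
        refine add_le_add ?_ le_rfl
        rw [← sum_image (g := fun k => (⇑(finRotate (n + 1)))^[k] i) ?_]
        · exact sum_le_sum_of_subset_of_nonneg (subset_univ _) fun j _ _ => inf1_nonneg f j
        · intro a ha b hb hab
          have h := congrArg Fin.val hab
          simp only [finRotate_iterate_val] at h
          have ha' := mem_range.1 ha
          have hb' := mem_range.1 hb
          have := Nat.ModEq.add_left_cancel' i.val (h : i.val + a ≡ i.val + b [MOD n + 1])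
          exact this.eq_of_lt_of_lt (by omega) (by omega)

/-- The block inequality: Kahn-Kalai-Linial with rotation in place of symmetry. -/
theorem block_kkl {R : ℕ} (P : (Fin R → Bool) → Bool) :
    (ev (1 / 2) (ind P) - ev (1 / 2) (ind P) ^ 2) * Real.log R ≤
      100 * ((∑ i, inf1 (ind P) i) + (R : ℝ) * defect (finRotate R) (ind P)) := by
  set f := ind P with hf
  set V : ℝ := ev (1 / 2) f - ev (1 / 2) f ^ 2 with hV
  set I : ℝ := ∑ i, inf1 f i with hI
  set p : ℝ := defect (finRotate R) f with hp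
  have hI0 : 0 ≤ I := sum_nonneg fun i _ => inf1_nonneg f i
  have hp0 : 0 ≤ p := defect_nonneg _ f
  have hV1 : V ≤ 1 := by
    have h1 : ev (1 / 2) f ≤ 1 := by
      calc ev (1 / 2) f ≤ ev (1 / 2) (fun _ => (1 : ℝ)) :=
            ev_mono (by norm_num) (by norm_num) fun x => by rw [hf, ind]; split_ifs <;> norm_num
        _ = 1 := ev_const 1
    nlinarith [sq_nonneg (ev (1 / 2) f)]
  rcases Nat.eq_zero_or_pos R with hR | hR
  · subst hR
    simp only [Nat.cast_zero, Real.log_zero, mul_zero, zero_mul, add_zero]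
    positivity
  have hR1 : (1 : ℝ) ≤ R := by exact_mod_cast hR
  set L : ℝ := Real.log R with hL
  have hL0 : 0 ≤ L := Real.log_nonneg hR1
  have hRp : 0 ≤ (R : ℝ) * p := by positivity
  by_cases hbig : L ≤ I + (R : ℝ) * p
  · calc V * L ≤ 1 * L := mul_le_mul_of_nonneg_right hV1 hL0
      _ ≤ 100 * (I + R * p) := by linarith
  push Not at hbig
  -- the window
  set w : ℕ := Nat.sqrt R with hw
  have hwR : w ^ 2 ≤ R := Nat.sqrt_le' R
  have hw1 : 1 ≤ w := Nat.le_sqrt'.2 (by simpa using Nat.succ_le_of_lt hR)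
  have hw1' : (1 : ℝ) ≤ w := by exact_mod_cast hw1
  have hwR' : (w : ℝ) ^ 2 ≤ R := by exact_mod_cast hwR
  have hRw : (R : ℝ) ≤ (2 * w) ^ 2 := by
    have h1 : R ≤ (w + 1) ^ 2 := (Nat.lt_succ_sqrt' R).le
    have h2 : (R : ℝ) ≤ ((w : ℝ) + 1) ^ 2 := by exact_mod_cast h1
    nlinarith
  have hM : ∀ i, inf1 f i ≤ 3 * L / w := by
    intro i
    rw [le_div_iff₀ (by linarith)]
    have h := inf1_window f i w (le_trans (Nat.le_self_pow (by norm_num) w) hwR)
    have h2 : (w : ℝ) ^ 2 * p ≤ R * p := mul_le_mul_of_nonneg_right hwR' hp0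
    nlinarith
  set D : ℕ := ⌊L / 30⌋₊ with hD
  have hv := var_le_sum P D _ hM
  -- the two factors
  have hA : L * (1 / ((D : ℝ) + 1)) ≤ 30 := by
    have h := Nat.lt_floor_add_one (L / 30)
    rw [mul_one_div, div_le_iff₀ (by positivity)]
    rw [← hD] at h
    linarith
  have h76 : (76 : ℝ) ^ D ≤ (R : ℝ) ^ (1 / 6 : ℝ) := by
    have he : (76 : ℝ) ≤ Real.exp 5 := by
      have h := Real.exp_one_gt_d9
      have h5 : Real.exp 5 = Real.exp 1 ^ 5 := by rw [← Real.exp_nat_mul]; norm_num
      rw [h5]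
      calc (76 : ℝ) ≤ 2.7 ^ 5 := by norm_num
        _ ≤ Real.exp 1 ^ 5 := by gcongr; linarith
    rw [Real.rpow_def_of_pos (by linarith)]
    calc (76 : ℝ) ^ D ≤ Real.exp 5 ^ D := by gcongr
      _ = Real.exp ((D : ℝ) * 5) := by rw [← Real.exp_nat_mul]
      _ ≤ Real.exp (Real.log R * (1 / 6)) := by
          refine Real.exp_le_exp.2 ?_
          have := Nat.floor_le (show (0 : ℝ) ≤ L / 30 by positivity)
          rw [← hD] at this
          rw [← hL]
          linarith
  have hB : L * Real.sqrt ((1 / 2) * (3 * L / w) * 76 ^ D) ≤ 100 := by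
    have hlog : L ≤ (R : ℝ) ^ (1 / 9 : ℝ) / (1 / 9) :=
      Real.log_le_rpow_div (by linarith) (by norm_num)
    have hL3 : L ^ 3 ≤ 729 * (R : ℝ) ^ (1 / 3 : ℝ) := by
      have h : L ^ 3 ≤ ((R : ℝ) ^ (1 / 9 : ℝ) / (1 / 9)) ^ 3 := pow_le_pow_left₀ hL0 hlog 3
      rw [div_pow] at h
      rw [← Real.rpow_natCast ((R : ℝ) ^ (1 / 9 : ℝ)) 3, ← Real.rpow_mul (by linarith)] at h
      norm_num at h
      linarith
    have hsw : (R : ℝ) ^ (1 / 2 : ℝ) ≤ 2 * w := by
      calc (R : ℝ) ^ (1 / 2 : ℝ) = Real.sqrt R := (Real.sqrt_eq_rpow R).symm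
        _ ≤ 2 * w := by
            rw [Real.sqrt_le_left (by positivity)]
            exact hRw
    have hmain : L ^ 2 * ((1 / 2) * (3 * L / w) * 76 ^ D) ≤ 2187 := by
      have hexp : (R : ℝ) ^ (1 / 3 : ℝ) * (R : ℝ) ^ (1 / 6 : ℝ) = (R : ℝ) ^ (1 / 2 : ℝ) := by
        rw [← Real.rpow_add (by linarith)]; norm_num
      have h1 : L ^ 3 * 76 ^ D ≤ 729 * (R : ℝ) ^ (1 / 2 : ℝ) := by
        rw [← hexp, ← mul_assoc]
        exact mul_le_mul hL3 h76 (by positivity) (by positivity)
      rw [show L ^ 2 * ((1 / 2) * (3 * L / w) * 76 ^ D) = (3 / 2) * (L ^ 3 * 76 ^ D) / w by ring,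
        div_le_iff₀ (by linarith)]
      nlinarith
    calc L * Real.sqrt ((1 / 2) * (3 * L / w) * 76 ^ D)
        = Real.sqrt (L ^ 2 * ((1 / 2) * (3 * L / w) * 76 ^ D)) := by
          rw [Real.sqrt_mul (sq_nonneg L), Real.sqrt_sq hL0]
      _ ≤ Real.sqrt (100 ^ 2) := Real.sqrt_le_sqrt (by linarith)
      _ = 100 := Real.sqrt_sq (by norm_num)
  calc V * L ≤ I * ((1 / 2) * Real.sqrt ((1 / 2) * (3 * L / w) * 76 ^ D) + 1 / (D + 1)) * L :=
        mul_le_mul_of_nonneg_right hv hL0
    _ = I * ((1 / 2) * (L * Real.sqrt ((1 / 2) * (3 * L / w) * 76 ^ D)) +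
          L * (1 / ((D : ℝ) + 1))) := by ring
    _ ≤ I * 100 := mul_le_mul_of_nonneg_left (by linarith) hI0
    _ ≤ 100 * (I + R * p) := by linarith

end Vale.Agent.P238.KKL
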