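import Vale.Agent.P238.Interfaces
import Vale.Agent.P238.BlockKKL

/-!
# P238, module A: the inequality inside one block, the other coordinates fixed
-/

open Finset
open scoped Classical

namespace Vale.Agent.P238

set_option linter.unusedSectionVars false

variable {ι : Type} [Fintype ι] [DecidableEq ι] {R : ℕ} (e : Fin R ↪ ι)

lemma sgn_sq (b : Bool) : sgn b * sgn b = 1 := by cases b <;> norm_num [sgn]

lemma sum_chi_mul (x y : ι → Bool) :
    ∑ S : Finset ι, chi S x * chi S y = if x = y then (2 : ℝ) ^ Fintype.card ι else 0 := by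
  have h : ∑ S : Finset ι, chi S x * chi S y = ∏ i, (1 + sgn (x i) * sgn (y i)) := by
    rw [prod_one_add, powerset_univ]
    exact sum_congr rfl fun S _ => by simp only [chi, prod_mul_distrib]
  rw [h]
  by_cases hxy : x = y
  · subst hxy
    simp only [sgn_sq, if_true, prod_const, card_univ]
    norm_num
  · rw [if_neg hxy]
    obtain ⟨i, hi⟩ := Function.ne_iff.1 hxy
    refine prod_eq_zero (mem_univ i) ?_
    revert hi
    cases x i <;> cases y i <;> simp [sgn]

lemma block_parseval (f : (ι → Bool) → ℝ) :
    ∑ S, coef f S ^ 2 = avg fun x => f x ^ 2 := by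
  simp only [coef, avg, sq, div_mul_div_comm, sum_mul_sum, ← sum_div]
  have h : ∑ S : Finset ι, ∑ x : ι → Bool, ∑ y : ι → Bool, f x * chi S x * (f y * chi S y) =
      2 ^ Fintype.card ι * ∑ x : ι → Bool, f x * f x := by
    rw [sum_comm, mul_sum]
    refine sum_congr rfl fun x _ => ?_
    rw [sum_comm]
    calc ∑ y : ι → Bool, ∑ S : Finset ι, f x * chi S x * (f y * chi S y)
        = ∑ y : ι → Bool, f x * f y * ∑ S : Finset ι, chi S x * chi S y := by
          refine sum_congr rfl fun y _ => ?_
          rw [mul_sum]
          exact sum_congr rfl fun S _ => by ring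
      _ = _ := by
          simp only [sum_chi_mul, mul_ite, mul_zero, sum_ite_eq, mem_univ, if_true]
          ring
  rw [h]
  field_simp

/-- Average over the block with the outside fixed. -/
noncomputable def blockMean (f : (ι → Bool) → ℝ) (x : ι → Bool) : ℝ :=
  avg fun z : Fin R → Bool => f (Function.extend e z x)

/-- Exchanging the block content with an independent one. -/
noncomputable def blockSwap : ((ι → Bool) × (Fin R → Bool)) ≃ ((ι → Bool) × (Fin R → Bool)) :=
  Function.Involutive.toPerm (fun q => (Function.extend e q.2 q.1, q.1 ∘ e)) fun q => by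
    ext j
    · by_cases h : ∃ k, e k = j
      · obtain ⟨k, rfl⟩ := h
        simp [e.injective.extend_apply]
      · simp [Function.extend_apply' _ _ _ h]
    · simp [e.injective.extend_apply]

lemma sum_swap (h : (ι → Bool) → (Fin R → Bool) → ℝ) :
    ∑ x : ι → Bool, ∑ z : Fin R → Bool, h (Function.extend e z x) (x ∘ e) =
      ∑ x : ι → Bool, ∑ z : Fin R → Bool, h x z := by
  rw [← Fintype.sum_prod_type', ← Fintype.sum_prod_type']
  exact Equiv.sum_comp (blockSwap e) fun q => h q.1 q.2

lemma avg_extend (h : (ι → Bool) → ℝ) : avg (blockMean e h) = avg h := by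
  simp only [avg, blockMean, ← sum_div]
  rw [sum_swap e (fun w _ => h w)]
  simp only [sum_const, nsmul_eq_mul, ← mul_sum, card_univ, Fintype.card_fun, Fintype.card_bool,
    Fintype.card_fin]
  push_cast
  field_simp

lemma chi_extend_of_disjoint {S : Finset ι} (hS : ¬ (S ∩ univ.map e).Nonempty) (x : ι → Bool)
    (z : Fin R → Bool) : chi S (Function.extend e z x) = chi S x := by
  refine prod_congr rfl fun i hi => ?_
  rw [Function.extend_apply']
  rintro ⟨k, rfl⟩
  exact hS ⟨e k, mem_inter.2 ⟨hi, mem_map.2 ⟨k, mem_univ k, rfl⟩⟩⟩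

lemma sum_chi_extend {S : Finset ι} (hS : (S ∩ univ.map e).Nonempty) (x : ι → Bool) :
    ∑ z : Fin R → Bool, chi S (Function.extend e z x) = 0 := by
  obtain ⟨i, hi⟩ := hS
  obtain ⟨hiS, him⟩ := mem_inter.1 hi
  obtain ⟨k, -, rfl⟩ := mem_map.1 him
  let T : (Fin R → Bool) ≃ (Fin R → Bool) :=
    Function.Involutive.toPerm (fun z => Function.update z k (!z k)) fun z => by
      funext j
      by_cases hj : j = k
      · subst hj; simp
      · simp [hj]
  have hT : ∀ z, T z = Function.update z k (!z k) := fun _ => rfl
  have h : ∀ z, chi S (Function.extend e (T z) x) = - chi S (Function.extend e z x) := by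
    intro z
    show (∏ i ∈ S, _) = - ∏ i ∈ S, _
    rw [← mul_prod_erase S _ hiS, ← mul_prod_erase S _ hiS, ← neg_mul]
    congr 1
    · simp only [hT, e.injective.extend_apply, Function.update_self]
      cases z k <;> simp [sgn]
    · refine prod_congr rfl fun j hj => ?_
      by_cases hjm : ∃ l, e l = j
      · obtain ⟨l, rfl⟩ := hjm
        have hlk : l ≠ k := fun h => (mem_erase.1 hj).1 (by rw [h])
        simp [hT, e.injective.extend_apply, hlk]
      · simp [Function.extend_apply' _ _ _ hjm]
  have h2 := Equiv.sum_comp T fun z => chi S (Function.extend e z x)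
  simp only [h, sum_neg_distrib] at h2
  linarith

lemma coef_blockMean (f : (ι → Bool) → ℝ) (S : Finset ι) :
    coef (blockMean e f) S = if (S ∩ univ.map e).Nonempty then 0 else coef f S := by
  have key : ∑ x : ι → Bool, blockMean e f x * chi S x =
      (∑ x : ι → Bool, f x * ∑ z : Fin R → Bool, chi S (Function.extend e z x)) / 2 ^ R := by
    simp only [blockMean, avg, Fintype.card_fin, div_mul_eq_mul_div, ← sum_div, sum_mul, mul_sum]
    congr 1
    rw [← sum_swap e (fun w z => f w * chi S (Function.extend e z w))]
    refine sum_congr rfl fun x _ => sum_congr rfl fun z _ => ?_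
    congr 2
    funext i
    by_cases h : ∃ k, e k = i
    · obtain ⟨k, rfl⟩ := h; simp [e.injective.extend_apply]
    · simp [Function.extend_apply' _ _ _ h]
  unfold coef
  conv_lhs => rw [avg, key]
  by_cases hS : (S ∩ univ.map e).Nonempty
  · simp [if_pos hS, sum_chi_extend e hS]
  · rw [if_neg hS]
    simp only [chi_extend_of_disjoint e hS, sum_const, nsmul_eq_mul, card_univ, Fintype.card_fun,
      Fintype.card_bool, Fintype.card_fin, avg]
    push_cast
    rw [show ∑ x : ι → Bool, f x * ((2 : ℝ) ^ R * chi S x) =
      2 ^ R * ∑ x : ι → Bool, f x * chi S x by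
        rw [mul_sum]; exact sum_congr rfl fun x _ => by ring]
    field_simp

lemma avg_add (g h : (ι → Bool) → ℝ) : avg (fun x => g x + h x) = avg g + avg h := by
  simp only [avg, sum_add_distrib, add_div]

lemma avg_mul_left (c : ℝ) (g : (ι → Bool) → ℝ) : avg (fun x => c * g x) = c * avg g := by
  simp only [avg, ← mul_sum, mul_div_assoc]

lemma avg_le (g h : (ι → Bool) → ℝ) (hgh : ∀ x, g x ≤ h x) : avg g ≤ avg h :=
  div_le_div_of_nonneg_right (sum_le_sum fun x _ => hgh x) (by positivity)

lemma mass_block (f : (ι → Bool) → ℝ) (hf : Boolean01 f) :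
    mass f (fun S => (S ∩ univ.map e).Nonempty) =
      avg (fun x => blockMean e f x - blockMean e f x ^ 2) := by
  have h1 := block_parseval f
  rw [show (fun x => f x ^ 2) = f from funext fun x => by rcases hf x with h | h <;> simp [h]]
    at h1
  have h2 := block_parseval (blockMean e f)
  simp only [coef_blockMean] at h2
  have h3 : avg (fun x => blockMean e f x - blockMean e f x ^ 2) =
      avg (blockMean e f) - avg (fun x => blockMean e f x ^ 2) := by
    simp only [avg, sum_sub_distrib, sub_div]
  rw [h3, avg_extend, ← h1, ← h2, mass, ← sum_sub_distrib, sum_filter]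
  refine sum_congr rfl fun S _ => ?_
  by_cases hS : (S ∩ univ.map e).Nonempty <;> simp [hS]

omit [Fintype ι] [DecidableEq ι] in
lemma ev_half_eq_avg {κ : Type} [Fintype κ] [DecidableEq κ] (h : (κ → Bool) → ℝ) :
    P063.ev (1 / 2) h = avg h := by
  have hw : ∀ x : κ → Bool, P063.wt (1 / 2 : ℝ) x = (1 / 2) ^ Fintype.card κ := by
    intro x
    rw [P063.wt, ← card_univ, ← prod_const]
    refine prod_congr rfl fun i _ => ?_
    split_ifs <;> norm_num
  simp only [P063.ev, hw, avg, one_div_pow, sum_div]
  refine Finset.sum_bij (fun x _ => x) (fun x _ => mem_univ x) (fun _ _ _ _ h => h)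
    (fun y _ => ⟨y, by simp, rfl⟩) fun x _ => ?_
  ring

lemma extend_update [DecidableEq (Fin R)] (z : Fin R → Bool) (x : ι → Bool) (k : Fin R) (b : Bool) :
    Function.extend e (Function.update z k b) x =
      Function.update (Function.extend e z x) (e k) b := by
  funext i
  by_cases h : ∃ l, e l = i
  · obtain ⟨l, rfl⟩ := h
    by_cases hl : l = k
    · subst hl; simp [e.injective.extend_apply]
    · simp [e.injective.extend_apply, hl, e.injective.ne hl]
  · have hne : i ≠ e k := fun hh => h ⟨k, hh.symm⟩
    simp [Function.extend_apply' _ _ _ h, hne]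

/-- The block inequality for one fixed outside. -/
lemma block_pointwise (p : ι ≃ ι) (hp : ∀ j, p (e j) = e (rot _ j))
    (hp' : ∀ i, (∀ j, e j ≠ i) → p i = i) (f : (ι → Bool) → ℝ) (hf : Boolean01 f)
    (x : ι → Bool) :
    (blockMean e f x - blockMean e f x ^ 2) * Real.log R ≤
      100 * ((∑ j, avg fun z : Fin R → Bool =>
          |f (Function.extend e z x) - f (flipAt (e j) (Function.extend e z x))|) +
        (R : ℝ) * avg fun z : Fin R → Bool =>
          |f (Function.extend e z x) - f (Function.extend e z x ∘ p)|) := by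
  let P : (Fin R → Bool) → Bool := fun z => decide (f (Function.extend e z x) = 1)
  have hP : P063.ind P = fun z => f (Function.extend e z x) := by
    funext z
    rcases hf (Function.extend e z x) with h | h <;> simp [P063.ind, P, h]
  have hk := KKL.block_kkl P
  rw [hP] at hk
  simp only [KKL.inf1, KKL.defect, ev_half_eq_avg] at hk
  refine le_trans (le_of_eq ?_) (hk.trans (le_of_eq ?_))
  · rfl
  · congr 2
    · refine sum_congr rfl fun j _ => congrArg avg (funext fun z => ?_)
      rw [extend_update, extend_update, flipAt, e.injective.extend_apply]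
      have hz : Function.update (Function.extend e z x) (e j) (z j) = Function.extend e z x := by
        rw [Function.update_eq_self_iff, e.injective.extend_apply]
      cases hzj : z j <;> rw [hzj] at hz
      · rw [hz, abs_sub_comm]; simp
      · rw [hz]; simp
    · congr 1
      refine congrArg avg (funext fun z => ?_)
      congr 3
      funext i
      by_cases h : ∃ l, e l = i
      · obtain ⟨l, rfl⟩ := h
        simp only [Function.comp_apply, hp, e.injective.extend_apply]
        rfl
      · simp [Function.comp_apply, hp' i (fun j hj => h ⟨j, hj⟩),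
          Function.extend_apply' _ _ _ h]

/-- Module A. -/
theorem block : BlockStmt := by
  have hlog : (0 : ℝ) < Real.log 2 := Real.log_pos (by norm_num)
  refine ⟨100 / Real.log 2, by positivity, ?_⟩
  intro r ι _ _ e p hp hp' f hf
  have hL : Real.log ((2 ^ r : ℕ) : ℝ) = r * Real.log 2 := by
    push_cast
    rw [Real.log_pow]
  have hkey : mass f (fun S => (S ∩ univ.map e).Nonempty) * Real.log ((2 ^ r : ℕ) : ℝ) ≤
      100 * ((∑ j, infl f (e j)) + ((2 ^ r : ℕ) : ℝ) * dis f p) := by
    calc _ = avg (fun x => (blockMean e f x - blockMean e f x ^ 2) *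
          Real.log ((2 ^ r : ℕ) : ℝ)) := by
          rw [mass_block e f hf, mul_comm, ← avg_mul_left]
          exact congrArg avg (funext fun x => mul_comm _ _)
      _ ≤ avg (fun x => 100 * ((∑ j, blockMean e (fun w => |f w - f (flipAt (e j) w)|) x) +
            ((2 ^ r : ℕ) : ℝ) * blockMean e (fun w => |f w - f (w ∘ p)|) x)) :=
          avg_le _ _ fun x => block_pointwise e p hp hp' f hf x
      _ = _ := by
          rw [avg_mul_left, avg_add, avg_mul_left, avg_extend]
          congr 3
          rw [avg, sum_comm, sum_div]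
          refine sum_congr rfl fun j _ => ?_
          show avg (blockMean e (fun w => |f w - f (flipAt (e j) w)|)) = _
          rw [avg_extend]
          rfl
  rw [hL] at hkey
  push_cast at hkey
  rw [div_mul_eq_mul_div, le_div_iff₀ hlog]
  calc _ = mass f (fun S => (S ∩ univ.map e).Nonempty) * ((r : ℝ) * Real.log 2) := by ring
    _ ≤ _ := hkey

end Vale.Agent.P238
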