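import Vale.Agent.P238.Scales

/-!
# P238: the multiscale inequality for Boolean functions
-/

namespace Vale.Agent.P238

open Finset

/-- `Fin (2 ^ m)` as blocks of length `2 ^ r`. -/
def blockEquiv {m p r : ℕ} (h : p + r = m) : Fin (2 ^ p) × Fin (2 ^ r) ≃ Fin (2 ^ m) :=
  finProdFinEquiv.trans (finCongr (by rw [← pow_add, h]))

lemma blockEquiv_val {m p r : ℕ} (h : p + r = m) (x : Fin (2 ^ p) × Fin (2 ^ r)) :
    (blockEquiv h x : ℕ) = x.2 + 2 ^ r * x.1 := by
  simp [blockEquiv, finProdFinEquiv]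

lemma blockEquiv_div {m p r : ℕ} (h : p + r = m) (x : Fin (2 ^ p) × Fin (2 ^ r)) :
    (blockEquiv h x : ℕ) / 2 ^ r = x.1 := by
  rw [blockEquiv_val, Nat.add_mul_div_left _ _ (Nat.two_pow_pos r),
    Nat.div_eq_of_lt x.2.isLt, zero_add]

/-- Rotation of the block `B` by one position. -/
def rotBlock {m p r : ℕ} (h : p + r = m) (B : Fin (2 ^ p)) : Fin (2 ^ m) ≃ Fin (2 ^ m) :=
  (blockEquiv h).symm.trans
    ((Equiv.prodShear (Equiv.refl _) fun b => if b = B then finRotate (2 ^ r) else Equiv.refl _).trans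
      (blockEquiv h))

lemma rotBlock_apply {m p r : ℕ} (h : p + r = m) (B : Fin (2 ^ p)) (b : Fin (2 ^ p))
    (j : Fin (2 ^ r)) :
    rotBlock h B (blockEquiv h (b, j)) = blockEquiv h (b, if b = B then rot _ j else j) := by
  simp only [rotBlock, Equiv.trans_apply, Equiv.symm_apply_apply, Equiv.prodShear, rot,
    Equiv.refl_apply, Equiv.coe_fn_mk]
  split_ifs <;> rfl

lemma sum_mass_blocks {m p r : ℕ} (h : p + r = m) (f : (Fin (2 ^ m) → Bool) → ℝ) :
    ∑ B : Fin (2 ^ p), mass f (fun S => (S ∩ univ.map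
        ((Function.Embedding.sectR B (Fin (2 ^ r))).trans (blockEquiv h).toEmbedding)).Nonempty)
      = ∑ S, coef f S ^ 2 * (occ r S : ℝ) := by
  simp only [mass, Finset.sum_filter]
  rw [Finset.sum_comm]
  refine Finset.sum_congr rfl fun S _ => ?_
  have hcard : occ r S = (univ.filter fun B : Fin (2 ^ p) => (S ∩ univ.map
      ((Function.Embedding.sectR B (Fin (2 ^ r))).trans (blockEquiv h).toEmbedding)).Nonempty).card := by
    refine Eq.trans ?_ (Finset.card_map ⟨fun B : Fin (2 ^ p) => (B : ℕ), Fin.val_injective⟩)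
    unfold occ
    congr 1
    ext k
    simp only [mem_image, mem_map, mem_filter, mem_univ, true_and, Function.Embedding.coeFn_mk,
      Finset.Nonempty, mem_inter, Function.Embedding.trans_apply, Function.Embedding.sectR_apply]
    constructor
    · rintro ⟨i, hi, rfl⟩
      obtain ⟨x, rfl⟩ := (blockEquiv h).surjective i
      exact ⟨x.1, ⟨_, hi, x.2, rfl⟩, (blockEquiv_div h x).symm⟩
    · rintro ⟨B, ⟨i, hi, j, rfl⟩, rfl⟩
      exact ⟨_, hi, blockEquiv_div h _⟩
  rw [hcard, ← Finset.sum_filter, Finset.sum_const, nsmul_eq_mul]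
  ring

/-- Exponents `r`, `l`, number of scales `K`, all inside `Fin (2 ^ m)`. -/
structure Setup where
  m : ℕ
  r : ℕ
  l : ℕ
  K : ℕ
  hl : 0 < l
  hfit : r + K * (2 * l) ≤ m

namespace Setup

variable (D : Setup)

/-- Inner exponent of scale `s`. -/
def base (s : Fin D.K) : ℕ := D.r + (s : ℕ) * (2 * D.l)

/-- Number of outer blocks of scale `s`, as an exponent. -/
def outer (s : Fin D.K) : ℕ := D.m - (D.base s + 2 * D.l)

lemma fit (s : Fin D.K) : D.outer s + 2 * D.l + D.base s = D.m := by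
  have h1 : (s : ℕ) * (2 * D.l) + 2 * D.l ≤ D.K * (2 * D.l) := by
    rw [← Nat.succ_mul]
    exact Nat.mul_le_mul_right _ s.isLt
  have := D.hfit
  unfold outer base
  omega

lemma fitBlock : (D.m - D.r) + D.r = D.m := by
  have := D.hfit
  omega

/-- Swap of neighbouring blocks at scale `s`. -/
def swp (s : Fin D.K) : Fin (2 ^ D.m) → Fin (2 ^ D.m) :=
  swapMap (splitEquiv (D.fit s)) (flipLow (by have := D.hl; omega : 0 < 2 * D.l))

/-- Rotations at scale `s`. -/
def rho (s : Fin D.K) (t : Fin (2 ^ D.outer s) → Fin (2 ^ D.l)) : Fin (2 ^ D.m) → Fin (2 ^ D.m) :=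
  rhoMap (splitEquiv (D.fit s)) t

end Setup

/-- The multiscale inequality for Boolean functions. -/
theorem core (hA : BlockStmt) (hS : ScaleStmt) :
    ∃ C : ℝ, 0 ≤ C ∧ ∀ D : Setup, ∀ f : (Fin (2 ^ D.m) → Bool) → ℝ, Boolean01 f →
      ∑ s, (D.r : ℝ) * dis f (D.swp s) ≤
        C * ((1 + (D.r * D.K : ℝ) / 2 ^ D.l) * (∑ i, infl f i) +
          (∑ B, (2 : ℝ) ^ D.r * dis f (rotBlock D.fitBlock B)) +
          ∑ s, (D.r : ℝ) / ((2 : ℝ) ^ D.l) ^ (2 ^ D.outer s) *
            ∑ t : Fin (2 ^ D.outer s) → Fin (2 ^ D.l), dis f (D.rho s t)) := by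
  obtain ⟨C₁, hC₁, hA⟩ := hA
  obtain ⟨C₂, hC₂, hS⟩ := hS
  refine ⟨C₂ * (C₁ + 1), by positivity, fun D f hf => ?_⟩
  set I := ∑ i, infl f i with hI
  set R := ∑ B, (2 : ℝ) ^ D.r * dis f (rotBlock D.fitBlock B) with hR
  set T := fun s => (∑ t : Fin (2 ^ D.outer s) → Fin (2 ^ D.l), dis f (D.rho s t)) /
      ((2 : ℝ) ^ D.l) ^ (2 ^ D.outer s) with hT
  have havg : ∀ {g : (Fin (2 ^ D.m) → Bool) → ℝ}, (∀ x, 0 ≤ g x) → 0 ≤ avg g := by
    intro g hg
    unfold avg
    exact div_nonneg (Finset.sum_nonneg fun x _ => hg x) (by positivity)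
  have hIn : 0 ≤ I := Finset.sum_nonneg fun i _ => havg fun x => abs_nonneg _
  have hRn : 0 ≤ R := Finset.sum_nonneg fun B _ => mul_nonneg (by positivity) (havg fun x => abs_nonneg _)
  have hTn : ∀ s, 0 ≤ T s := fun s => div_nonneg
    (Finset.sum_nonneg fun t _ => havg fun x => abs_nonneg _) (by positivity)
  -- the block inequality, summed
  have hblock : (D.r : ℝ) * (∑ S, coef f S ^ 2 * (occ D.r S : ℝ)) ≤ C₁ * (I + R) := by
    rw [← sum_mass_blocks D.fitBlock f, Finset.mul_sum]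
    set e := fun B : Fin (2 ^ (D.m - D.r)) =>
      (Function.Embedding.sectR B (Fin (2 ^ D.r))).trans (blockEquiv D.fitBlock).toEmbedding
    have h1 : ∀ B, (D.r : ℝ) * mass f (fun S => (S ∩ univ.map (e B)).Nonempty) ≤
        C₁ * ((∑ j, infl f (e B j)) + 2 ^ D.r * dis f (rotBlock D.fitBlock B)) := by
      intro B
      refine hA D.r _ (e B) (rotBlock D.fitBlock B) (fun j => ?_) (fun i hi => ?_) f hf
      · simp [e, rotBlock_apply]
      · obtain ⟨x, rfl⟩ := (blockEquiv D.fitBlock).surjective i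
        have : x.1 ≠ B := by
          intro hx
          exact hi x.2 (by simp [e, ← hx])
        rw [rotBlock_apply, if_neg this]
    refine le_trans (Finset.sum_le_sum fun B _ => h1 B) (le_of_eq ?_)
    rw [← Finset.mul_sum, Finset.sum_add_distrib]
    congr 2
    rw [hI, ← (blockEquiv D.fitBlock).sum_comp, Fintype.sum_prod_type]
    rfl
  -- every scale
  have hscale : ∀ s, dis f (D.swp s) ≤
      C₂ * (T s + mass f (Merges (splitEquiv (D.fit s))) + I / 2 ^ D.l) := by
    intro s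
    have := hS (Fin (2 ^ D.m)) (Fin (2 ^ D.outer s)) (Fin (2 ^ D.base s)) (2 ^ (2 * D.l)) (2 ^ D.l)
      (Nat.two_pow_pos _) (Nat.pow_le_pow_right (by norm_num) (by omega))
      (splitEquiv (D.fit s)) (flipLow (by have := D.hl; omega))
      (flipLow_step _) f hf
    simpa [Setup.swp, Setup.rho, hT, hI] using this
  -- telescoping
  have hdrop : ∑ s, mass f (Merges (splitEquiv (D.fit s))) ≤
      ∑ S, coef f S ^ 2 * (occ D.r S : ℝ) := by
    simp only [mass, Finset.sum_filter]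
    rw [Finset.sum_comm]
    refine Finset.sum_le_sum fun S _ => ?_
    rw [← Finset.sum_filter, Finset.sum_const, nsmul_eq_mul, mul_comm]
    refine mul_le_mul_of_nonneg_left ?_ (sq_nonneg _)
    have h2 := sum_drops_le S D.r (2 * D.l) D.K
    have h3 : (univ.filter fun s : Fin D.K => Merges (splitEquiv (D.fit s)) S).card ≤
        ((Finset.range D.K).filter fun s : ℕ =>
          occ (D.r + s * (2 * D.l) + 2 * D.l) S < occ (D.r + s * (2 * D.l)) S).card := by
      refine Finset.card_le_card_of_injOn (fun s : Fin D.K => (s : ℕ)) ?_ Fin.val_injective.injOn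
      intro s hs
      simp only [coe_filter, mem_univ, true_and, Set.mem_ofPred_eq] at hs ⊢
      exact ⟨Finset.mem_range.2 s.isLt, (merges_iff _ S).1 hs⟩
    exact_mod_cast le_trans h3 (by omega)
  have hr : (0 : ℝ) ≤ D.r := Nat.cast_nonneg _
  have key : ∑ s, (D.r : ℝ) * dis f (D.swp s) ≤
      C₂ * ((D.r : ℝ) * ∑ s, T s + C₁ * (I + R) + (D.r * D.K : ℝ) / 2 ^ D.l * I) := by
    calc _ ≤ ∑ s, (D.r : ℝ) * (C₂ * (T s + mass f (Merges (splitEquiv (D.fit s))) + I / 2 ^ D.l)) :=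
          Finset.sum_le_sum fun s _ => mul_le_mul_of_nonneg_left (hscale s) hr
      _ = C₂ * ((D.r : ℝ) * ∑ s, T s + (D.r : ℝ) * (∑ s, mass f (Merges (splitEquiv (D.fit s))))
          + (D.r * D.K : ℝ) / 2 ^ D.l * I) := by
          simp only [← Finset.mul_sum, Finset.sum_add_distrib, Finset.sum_const, card_univ,
            Fintype.card_fin, nsmul_eq_mul]
          ring
      _ ≤ _ := by
          have := mul_le_mul_of_nonneg_left hdrop hr
          refine mul_le_mul_of_nonneg_left ?_ hC₂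
          linarith
  have hTe : (D.r : ℝ) * ∑ s, T s = ∑ s, (D.r : ℝ) / ((2 : ℝ) ^ D.l) ^ (2 ^ D.outer s) *
            ∑ t : Fin (2 ^ D.outer s) → Fin (2 ^ D.l), dis f (D.rho s t) := by
    rw [Finset.mul_sum]
    refine Finset.sum_congr rfl fun s _ => ?_
    simp only [hT]
    ring
  rw [← hTe]
  refine key.trans ?_
  have hq : 0 ≤ (D.r * D.K : ℝ) / 2 ^ D.l * I := by positivity
  have hS0 : 0 ≤ (D.r : ℝ) * ∑ s, T s := mul_nonneg hr (Finset.sum_nonneg fun s _ => hTn s)
  nlinarith [mul_nonneg hC₂ hIn, mul_nonneg hC₂ hRn, mul_nonneg hC₂ hq, mul_nonneg hC₂ hS0,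
    mul_nonneg (mul_nonneg hC₂ hC₁) hq, mul_nonneg (mul_nonneg hC₂ hC₁) hS0]

end Vale.Agent.P238
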