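import Mathlib

/-!
# P238: basic definitions for the multiscale Fourier inequality on the discrete cube
-/

namespace Vale.Agent.P238

open Finset

variable {ι : Type*}

/-- Sign of a bit. -/
def sgn (b : Bool) : ℝ := if b then -1 else 1

/-- Character indexed by a finite set of coordinates. -/
def chi (S : Finset ι) (x : ι → Bool) : ℝ := ∏ i ∈ S, sgn (x i)

variable [Fintype ι] [DecidableEq ι]

/-- Uniform average on the cube. -/
noncomputable def avg (g : (ι → Bool) → ℝ) : ℝ :=
  (∑ x, g x) / 2 ^ Fintype.card ι

/-- Fourier coefficient. -/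
noncomputable def coef (f : (ι → Bool) → ℝ) (S : Finset ι) : ℝ :=
  avg fun x => f x * chi S x

/-- Flip one coordinate. -/
def flipAt (i : ι) (x : ι → Bool) : ι → Bool := Function.update x i (!x i)

/-- Average change under a flip of coordinate `i`. -/
noncomputable def infl (f : (ι → Bool) → ℝ) (i : ι) : ℝ :=
  avg fun x => |f x - f (flipAt i x)|

/-- Average change under permuting the positions by `p`. -/
noncomputable def dis (f : (ι → Bool) → ℝ) (p : ι → ι) : ℝ :=
  avg fun x => |f x - f (x ∘ p)|

/-- A `{0,1}`-valued function. -/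
def Boolean01 (f : (ι → Bool) → ℝ) : Prop := ∀ x, f x = 0 ∨ f x = 1

/-- Sum of squared coefficients over a family of sets selected by `P`. -/
noncomputable def mass (f : (ι → Bool) → ℝ) (P : Finset ι → Prop) [DecidablePred P] : ℝ :=
  ∑ S ∈ univ.filter P, coef f S ^ 2

/-- The rotation `i ↦ i + 1` of `Fin n`. -/
def rot (n : ℕ) : Fin n → Fin n := fun i => finRotate n i

end Vale.Agent.P238
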