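import Vale.Agent.P238.Main

/-!
# P238: from two-sided bounds to the product of extreme ratios
-/

namespace Vale.Agent.P238

open Finset

/-- The lower bound for the product of the two extreme ratios of an injective map. -/
theorem distortion_of_block_scale (hA : BlockStmt) (hS : ScaleStmt) :
    ∃ c : ℝ, 0 < c ∧ ∃ n₀ : ℕ, ∀ n, n₀ ≤ n →
      ∀ f : (Fin n → Bool) → lp (fun _ : ℕ => ℝ) 1, Function.Injective f →
        ∃ x y u v : Fin n → Bool, x ≠ y ∧ u ≠ v ∧
          c * (Real.log n) ^ 2 / Real.log (Real.log n) ≤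
            (‖f x - f y‖ / (ED (List.ofFn x) (List.ofFn y) : ℝ)) *
              ((ED (List.ofFn u) (List.ofFn v) : ℝ) / ‖f u - f v‖) := by
  classical
  obtain ⟨c, hc, n₀, h⟩ := lower_of_block_scale hA hS
  refine ⟨c, hc, max n₀ 1, fun n hn f hinj => ?_⟩
  set pairs := (univ : Finset ((Fin n → Bool) × (Fin n → Bool))).filter fun p => p.1 ≠ p.2 with hP
  have hne : pairs.Nonempty := by
    refine ⟨(fun _ => true, fun _ => false), mem_filter.2 ⟨mem_univ _, fun e => ?_⟩⟩
    have h0 : 0 < n := lt_of_lt_of_le (by norm_num) (le_trans (le_max_right n₀ 1) hn)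
    simpa using congrFun e ⟨0, h0⟩
  set q : (Fin n → Bool) × (Fin n → Bool) → ℝ := fun p : (Fin n → Bool) × (Fin n → Bool) =>
    ‖f p.1 - f p.2‖ / (ED (List.ofFn p.1) (List.ofFn p.2) : ℝ) with hq
  have hED : ∀ p ∈ pairs, 0 < (ED (List.ofFn p.1) (List.ofFn p.2) : ℝ) := by
    intro p hp
    have : ED (List.ofFn p.1) (List.ofFn p.2) ≠ 0 := fun e =>
      (mem_filter.1 hp).2 (List.ofFn_injective (eq_of_ed_eq_zero e))
    exact_mod_cast Nat.pos_of_ne_zero this
  have hqpos : ∀ p ∈ pairs, 0 < q p := fun p hp =>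
    div_pos (lt_of_le_of_ne (norm_nonneg (f p.1 - f p.2))
      (fun e => hinj.ne (mem_filter.1 hp).2 (sub_eq_zero.1 (norm_eq_zero.1 e.symm)))) (hED p hp)
  obtain ⟨hi, hhi, hmax⟩ := exists_max_image pairs q hne
  obtain ⟨lo, hlo, hmin⟩ := exists_min_image pairs q hne
  refine ⟨hi.1, hi.2, lo.1, lo.2, (mem_filter.1 hhi).2, (mem_filter.1 hlo).2, ?_⟩
  have := h n (le_trans (le_max_left _ _) hn) f (q lo) (q hi) (hqpos lo hlo) fun x y => by
    by_cases hxy : x = y
    · subst hxy; simp [ed_self]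
    · have hp : (x, y) ∈ pairs := mem_filter.2 ⟨mem_univ _, hxy⟩
      have h0 : (0 : ℝ) < (ED (List.ofFn x) (List.ofFn y) : ℝ) := hED (x, y) hp
      have h1 := hmin (x, y) hp
      have h2 := hmax (x, y) hp
      clear_value pairs
      constructor
      · refine le_trans (mul_le_mul_of_nonneg_right h1 h0.le) (le_of_eq ?_)
        rw [hq]
        exact div_mul_cancel₀ _ h0.ne'
      · refine le_trans (le_of_eq ?_) (mul_le_mul_of_nonneg_right h2 h0.le)
        rw [hq]
        exact (div_mul_cancel₀ _ h0.ne').symm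
  refine this.trans (le_of_eq ?_)
  rw [div_eq_mul_inv, hq]
  simp only [inv_div]

end Vale.Agent.P238
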