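import Vale.Agent.P238.Interfaces

/-!
# P238, module C: edit distance facts
-/

namespace Vale.Agent.P238

open Finset

variable {α : Type*}

lemma EditStep.symm {x y : List α} (h : EditStep x y) : EditStep y x := by
  cases h with
  | ins l r a => exact .del l r a
  | del l r a => exact .ins l r a
  | sub l r a b => exact .sub l r b a

lemma EditChain.trans {i j : ℕ} {x y z : List α} (h₁ : EditChain i x y) (h₂ : EditChain j y z) :
    EditChain (i + j) x z := by
  induction h₁ with
  | nil x => simpa using h₂
  | cons s _ ih => rw [Nat.add_right_comm]; exact .cons s (ih h₂)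

lemma EditChain.symm {k : ℕ} {x y : List α} (h : EditChain k x y) : EditChain k y x := by
  induction h with
  | nil x => exact .nil x
  | cons s _ ih => exact ih.trans (.cons s.symm (.nil _))

lemma EditChain.prepend {k : ℕ} {x y : List α} (h : EditChain k x y) (u : List α) :
    EditChain k (u ++ x) (u ++ y) := by
  induction h with
  | nil x => exact .nil _
  | cons s _ ih =>
    refine .cons ?_ ih
    cases s with
    | ins l r a => simpa only [List.append_assoc] using EditStep.ins (u ++ l) r a
    | del l r a => simpa only [List.append_assoc] using EditStep.del (u ++ l) r a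
    | sub l r a b => simpa only [List.append_assoc] using EditStep.sub (u ++ l) r a b

lemma EditChain.append {k : ℕ} {x y : List α} (h : EditChain k x y) (u : List α) :
    EditChain k (x ++ u) (y ++ u) := by
  induction h with
  | nil x => exact .nil _
  | cons s _ ih =>
    refine .cons ?_ ih
    cases s with
    | ins l r a => simpa only [List.append_assoc, List.cons_append] using EditStep.ins l (r ++ u) a
    | del l r a => simpa only [List.append_assoc, List.cons_append] using EditStep.del l (r ++ u) a
    | sub l r a b =>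
      simpa only [List.append_assoc, List.cons_append] using EditStep.sub l (r ++ u) a b

/-- Deleting all letters outside a subsequence. -/
lemma chain_of_sublist {l x : List α} (h : l.Sublist x) :
    EditChain (x.length - l.length) x l := by
  induction h with
  | slnil => exact .nil _
  | @cons l x a h ih =>
    have := h.length_le
    rw [List.length_cons, show x.length + 1 - l.length = x.length - l.length + 1 by omega]
    exact .cons (.del [] x a) ih
  | @cons_cons l x a _ ih => simpa using ih.prepend [a]

lemma exists_chain (x y : List α) : ∃ k, EditChain k x y :=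
  ⟨_, (chain_of_sublist (List.nil_sublist x)).trans (chain_of_sublist (List.nil_sublist y)).symm⟩

lemma ed_chain (x y : List α) : EditChain (ED x y) x y := Nat.sInf_mem (exists_chain x y)

lemma ed_le {k : ℕ} {x y : List α} (h : EditChain k x y) : ED x y ≤ k := Nat.sInf_le h

lemma ed_self (x : List α) : ED x x = 0 := Nat.le_zero.1 (ed_le (.nil x))

lemma ed_comm (x y : List α) : ED x y = ED y x :=
  le_antisymm (ed_le (ed_chain y x).symm) (ed_le (ed_chain x y).symm)

lemma ed_triangle (x y z : List α) : ED x z ≤ ED x y + ED y z :=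
  ed_le ((ed_chain x y).trans (ed_chain y z))

lemma eq_of_chain_zero {x y : List α} (h : EditChain 0 x y) : x = y := by
  cases h; rfl

lemma eq_of_ed_eq_zero {x y : List α} (h : ED x y = 0) : x = y :=
  eq_of_chain_zero (h ▸ ed_chain x y)

lemma ed_append_le (x y u : List α) : ED (x ++ u) (y ++ u) ≤ ED x y :=
  ed_le ((ed_chain x y).append u)

lemma ed_set_le (x : List α) (i : ℕ) (b : α) : ED x (x.set i b) ≤ 1 := by
  by_cases h : i < x.length
  · refine ed_le (EditChain.cons ?_ (.nil _))
    have := EditStep.sub (x.take i) (x.drop (i + 1)) x[i] b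
    rw [List.cons_getElem_drop_succ, List.take_append_drop] at this
    rwa [List.set_eq_take_append_cons_drop, if_pos h]
  · rw [List.set_eq_of_length_le (not_lt.1 h), ed_self]
    omega

lemma ed_ofFn_flip_le {n : ℕ} (i : Fin n) (x : Fin n → Bool) :
    ED (List.ofFn x) (List.ofFn (flipAt i x)) ≤ 1 := by
  have : List.ofFn (flipAt i x) = (List.ofFn x).set i (!x i) := by
    refine List.ext_getElem (by simp) fun j h₁ h₂ => ?_
    simp only [List.getElem_ofFn, List.getElem_set, flipAt, Function.update_apply]
    by_cases hij : (i : ℕ) = j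
    · simp [hij, Fin.ext_iff]
    · simp [hij, Fin.ext_iff, Ne.symm hij]
  rw [this]
  exact ed_set_le _ _ _

lemma ofFn_padWord {N n : ℕ} (h : N ≤ n) (x : Fin N → Bool) :
    List.ofFn (padWord n x) = List.ofFn x ++ List.replicate (n - N) false := by
  refine List.ext_getElem (by simp; omega) fun j h₁ h₂ => ?_
  simp only [List.getElem_ofFn, List.getElem_append, List.length_ofFn, List.getElem_replicate,
    padWord]

lemma ed_padWord_le {N n : ℕ} (h : N ≤ n) (x y : Fin N → Bool) :
    ED (List.ofFn (padWord n x)) (List.ofFn (padWord n y)) ≤ ED (List.ofFn x) (List.ofFn y) := by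
  rw [ofFn_padWord h, ofFn_padWord h]
  exact ed_append_le _ _ _

lemma ed_eq_zero_iff {x y : List α} : ED x y = 0 ↔ x = y :=
  ⟨eq_of_ed_eq_zero, fun h => h ▸ ed_self x⟩

lemma padWord_injective {N n : ℕ} (h : N ≤ n) :
    Function.Injective (padWord (N := N) n) := by
  intro x y e
  funext i
  have := congrFun e ⟨i, by omega⟩
  simpa [padWord, i.2] using this

/-- A short edit chain leaves a long common subsequence. -/
lemma common_of_chain {k : ℕ} {x y : List α} (h : EditChain k x y) :
    ∃ l : List α, l.Sublist x ∧ l.Sublist y ∧ x.length ≤ l.length + k ∧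
      y.length ≤ l.length + k := by
  induction h with
  | nil x => exact ⟨x, .refl _, .refl _, by omega, by omega⟩
  | @cons k x y z s _ ih =>
    obtain ⟨l, hy, hz, hly, hlz⟩ := ih
    have key : ∀ (p q : List α) (a : α), l.Sublist (p ++ a :: q) →
        ∃ l' : List α, l'.Sublist l ∧ l'.Sublist (p ++ q) ∧ l.length ≤ l'.length + 1 := by
      intro p q a hl
      obtain ⟨l₁, l₂, rfl, h₁, h₂⟩ := List.sublist_append_iff.1 hl
      refine ⟨l₁ ++ l₂.tail, (List.Sublist.refl _).append (List.tail_sublist _),
        h₁.append (by simpa using h₂.tail), ?_⟩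
      simp
      omega
    cases s with
    | ins p q a =>
      obtain ⟨l', e₁, e₂, e₃⟩ := key p q a hy
      simp only [List.length_append, List.length_cons] at hly ⊢
      exact ⟨l', e₂, e₁.trans hz, by omega, by omega⟩
    | del p q a =>
      refine ⟨l, hy.trans ((List.Sublist.refl p).append (List.sublist_cons_self a q)), hz, ?_, ?_⟩
      · simp only [List.length_append, List.length_cons] at hly ⊢
        omega
      · omega
    | sub p q a b =>
      obtain ⟨l', e₁, e₂, e₃⟩ := key p q b hy
      simp only [List.length_append, List.length_cons] at hly ⊢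
      exact ⟨l', e₂.trans ((List.Sublist.refl p).append (List.sublist_cons_self a q)),
        e₁.trans hz, by omega, by omega⟩

theorem match_le : MatchStmt := by
  intro n g K hg x
  set p := K.orderEmbOfFin rfl with hp
  have hq : StrictMono fun i => g (p i) := fun i j hij =>
    hg (K.orderEmbOfFin_mem rfl i) (K.orderEmbOfFin_mem rfl j) (p.strictMono hij)
  set l := List.ofFn fun i => x (g (p i)) with hl
  have h₁ : l.Sublist (List.ofFn x) := by
    rw [List.sublist_iff_exists_fin_orderEmbedding_get_eq]
    refine ⟨OrderEmbedding.ofStrictMono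
      (fun i => Fin.cast (List.length_ofFn).symm (g (p (Fin.cast (List.length_ofFn) i))))
      (fun i j hij => ?_), fun i => ?_⟩
    · exact hq (show Fin.cast (List.length_ofFn) i < Fin.cast (List.length_ofFn) j from hij)
    · simp [hl]; rfl
  have h₂ : l.Sublist (List.ofFn (x ∘ g)) := by
    rw [List.sublist_iff_exists_fin_orderEmbedding_get_eq]
    refine ⟨OrderEmbedding.ofStrictMono
      (fun i => Fin.cast (List.length_ofFn).symm (p (Fin.cast (List.length_ofFn) i)))
      (fun i j hij => ?_), fun i => ?_⟩
    · exact p.strictMono (show Fin.cast (List.length_ofFn) i < Fin.cast (List.length_ofFn) j from hij)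
    · simp [hl]; rfl
  have := ed_le ((chain_of_sublist h₁).trans (chain_of_sublist h₂).symm)
  simp only [hl, List.length_ofFn] at this
  omega

/-- Few edits between padded words give a long matching inside the first `N` positions. -/
lemma matching_of_ed {N n k : ℕ} (hN : N ≤ n) (x y : Fin N → Bool)
    (h : ED (List.ofFn (padWord n x)) (List.ofFn (padWord n y)) ≤ k) :
    ∃ p q : Fin (N - k) ↪o Fin N, ∀ i, x (p i) = y (q i) := by
  classical
  obtain ⟨l, hx, hy, hlx, -⟩ := common_of_chain (ed_chain (List.ofFn (padWord n x))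
    (List.ofFn (padWord n y)))
  rw [List.length_ofFn] at hlx
  obtain ⟨P, hP⟩ := List.sublist_iff_exists_fin_orderEmbedding_get_eq.1 hx
  obtain ⟨Q, hQ⟩ := List.sublist_iff_exists_fin_orderEmbedding_get_eq.1 hy
  -- positions matched inside the first `N` letters
  set A := univ.filter fun i => (P i : ℕ) < N with hA
  set B := univ.filter fun i => (Q i : ℕ) < N with hB
  have hAB : A ⊆ B ∨ B ⊆ A := by
    by_contra hne
    push Not at hne
    obtain ⟨i, hi, hi'⟩ := not_subset.1 hne.1
    obtain ⟨j, hj, hj'⟩ := not_subset.1 hne.2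
    simp only [hA, hB, mem_filter, mem_univ, true_and, not_lt] at hi hi' hj hj'
    rcases lt_or_ge j i with hij | hij
    · have : (P j : ℕ) < P i := P.strictMono hij
      omega
    · rcases eq_or_lt_of_le hij with rfl | hij
      · omega
      · have : (Q i : ℕ) < Q j := Q.strictMono hij
        omega
  have hout : ∀ R : Fin l.length → ℕ, Function.Injective R → (∀ i, R i < n) →
      l.length ≤ (univ.filter fun i => R i < N).card + (n - N) := by
    intro R hR hlt
    have h1 : (univ.filter fun i => ¬ R i < N).card ≤ (Finset.Ico N n).card :=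
      card_le_card_of_injOn R (fun i hi => by simp at hi ⊢; exact ⟨hi, hlt i⟩) hR.injOn
    have h2 := card_filter_add_card_filter_not (s := (univ : Finset (Fin l.length)))
      (fun i => R i < N)
    simp at h1 h2
    omega
  have cA : l.length ≤ A.card + (n - N) :=
    hout (fun i => P i) (Fin.val_injective.comp P.injective) fun i => by
      simpa using (P i).2
  have cB : l.length ≤ B.card + (n - N) :=
    hout (fun i => Q i) (Fin.val_injective.comp Q.injective) fun i => by
      simpa using (Q i).2
  have hcard : N - k ≤ (A ∩ B).card := by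
    rcases hAB with h | h
    · rw [inter_eq_left.2 h]; omega
    · rw [inter_eq_right.2 h]; omega
  obtain ⟨U, hU, hUc⟩ := exists_subset_card_eq hcard
  have hUA : ∀ i, (P (U.orderEmbOfFin hUc i) : ℕ) < N ∧ (Q (U.orderEmbOfFin hUc i) : ℕ) < N := by
    intro i
    have := hU (U.orderEmbOfFin_mem hUc i)
    simpa [hA, hB] using this
  refine ⟨OrderEmbedding.ofStrictMono (fun i => ⟨_, (hUA i).1⟩) (fun i j hij =>
      P.strictMono ((U.orderEmbOfFin hUc).strictMono hij)),
    OrderEmbedding.ofStrictMono (fun i => ⟨_, (hUA i).2⟩) (fun i j hij =>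
      Q.strictMono ((U.orderEmbOfFin hUc).strictMono hij)), fun i => ?_⟩
  have e₁ := hP (U.orderEmbOfFin hUc i)
  have e₂ := hQ (U.orderEmbOfFin hUc i)
  rw [e₁] at e₂
  simp only [List.get_ofFn, padWord] at e₂
  simp [(hUA i).1, (hUA i).2] at e₂
  exact e₂

/-- Words satisfying a system of equations along a monotone matching. -/
lemma card_solutions {N j : ℕ} (g : Fin N → Fin N) (hg : ∀ v, g (g v) = v) (hne : ∀ v, g v ≠ v)
    (p q : Fin j ↪o Fin N) :
    ∃ s : ℕ, 2 * j ≤ N + 6 * s ∧
      (univ.filter fun x : Fin N → Bool => ∀ i, x (p i) = x (g (q i))).card ≤ 2 ^ (N - s) := by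
  classical
  set E := univ.filter fun i => p i ≠ g (q i) with hE
  have hginj : Function.Injective g := fun a b h => by rw [← hg a, h, hg]
  -- few loops: a loop and its partner cross
  have hloop : 2 * (univ.filter fun i => ¬ p i ≠ g (q i)).card ≤ N := by
    set L := (univ.filter fun i => ¬ p i ≠ g (q i)).image q with hL
    have hd : Disjoint L (L.image g) := by
      rw [disjoint_left]
      intro v hv hv'
      simp only [hL, mem_image, mem_filter, mem_univ, true_and, not_not] at hv hv'
      obtain ⟨i, hi, rfl⟩ := hv
      obtain ⟨w, ⟨i', hi', rfl⟩, hw⟩ := hv'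
      have hpi : p i = q i' := by rw [hi, ← hw, hg]
      have hpi' : p i' = q i := by rw [hi', hw]
      rcases lt_trichotomy i i' with h | h | h
      · have h1 := p.strictMono h
        have h2 := q.strictMono h
        rw [hpi, hpi'] at h1
        exact lt_asymm h1 h2
      · subst h
        exact hne _ hw
      · have h1 := p.strictMono h
        have h2 := q.strictMono h
        rw [hpi, hpi'] at h1
        exact lt_asymm h1 h2
    have h := card_le_univ (L ∪ L.image g)
    rw [card_union_of_disjoint hd, card_image_of_injective _ hginj, hL,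
      card_image_of_injective _ q.injective, Fintype.card_fin] at h
    omega
  have hjE : 2 * j ≤ N + 2 * E.card := by
    have := card_filter_add_card_filter_not (s := (univ : Finset (Fin j)))
      (fun i => p i ≠ g (q i))
    simp only [card_univ, Fintype.card_fin] at this
    rw [hE]
    omega
  obtain ⟨T, hT, hmax⟩ := exists_max_image
    (E.powerset.filter fun T => ∀ i ∈ T, ∀ i' ∈ T, p i ≠ g (q i')) Finset.card ⟨∅, by simp⟩
  simp only [mem_filter, mem_powerset] at hT
  have hcov : E.card ≤ 3 * T.card := by
    have hsub : E ⊆ T ∪ ((T.image fun i => g (q i)).preimage p p.injective.injOn ∪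
        (T.image p).preimage (fun i => g (q i)) (hginj.comp q.injective).injOn) := by
      intro i hi
      by_contra hc
      simp only [mem_union, mem_preimage, mem_image, not_or, not_exists, not_and] at hc
      have := hmax (insert i T) (by
        simp only [mem_filter, mem_powerset, insert_subset_iff, mem_insert]
        refine ⟨⟨hi, hT.1⟩, ?_⟩
        rintro a (rfl | ha) b (rfl | hb)
        · exact (mem_filter.1 hi).2
        · exact fun e => hc.2.1 b hb e.symm
        · exact fun e => hc.2.2 a ha e
        · exact hT.2 a ha b hb)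
      rw [card_insert_of_notMem hc.1] at this
      omega
    refine (card_le_card hsub).trans ((card_union_le _ _).trans ?_)
    have h1 : ((T.image fun i => g (q i)).preimage p p.injective.injOn).card ≤ T.card :=
      (card_le_card_of_injOn p (fun a ha => by simpa using ha) p.injective.injOn).trans
        card_image_le
    have h2 : ((T.image p).preimage (fun i => g (q i))
        (hginj.comp q.injective).injOn).card ≤ T.card :=
      (card_le_card_of_injOn (fun i => g (q i)) (fun a ha => by simpa using ha)
        (hginj.comp q.injective).injOn).trans card_image_le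
    have h3 := card_union_le ((T.image fun i => g (q i)).preimage p p.injective.injOn)
      ((T.image p).preimage (fun i => g (q i)) (hginj.comp q.injective).injOn)
    omega
  refine ⟨T.card, by omega, ?_⟩
  set D := univ.filter fun v => v ∉ T.image p with hD
  have hDc : D.card = N - T.card := by
    rw [hD, filter_not, filter_mem_eq_inter, univ_inter, card_univ_diff,
      card_image_of_injective _ p.injective, Fintype.card_fin]
  calc _ ≤ Fintype.card ({v // v ∈ D} → Bool) := ?_
    _ = 2 ^ (N - T.card) := by simp [hDc]
  rw [← card_univ]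
  refine card_le_card_of_injOn (fun x v => x v.1) (fun _ _ => mem_univ _) ?_
  intro x hx y hy hxy
  simp only [coe_filter, Set.mem_setOf_eq, mem_univ, true_and] at hx hy
  funext v
  have hout : ∀ w, w ∉ T.image p → x w = y w := fun w hw =>
    congrFun hxy ⟨w, mem_filter.2 ⟨mem_univ _, hw⟩⟩
  by_cases hv : v ∈ T.image p
  · obtain ⟨i, hi, rfl⟩ := mem_image.1 hv
    rw [hx i, hy i]
    refine hout _ fun hmem => ?_
    obtain ⟨i', hi', e⟩ := mem_image.1 hmem
    exact hT.2 i' hi' i hi e
  · exact hout v hv

lemma choose_bound (k : ℕ) : (1024 * k).choose k ≤ 2 ^ (38 * k) := by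
  have h1 : (1024 * k).choose k * 64 ^ (1024 * k - k) ≤ 65 ^ (1024 * k) := by
    have := add_pow (1 : ℕ) 64 (1024 * k)
    simp only [one_pow, one_mul, Nat.reduceAdd, Nat.cast_id] at this
    rw [this, mul_comm]
    exact single_le_sum (f := fun i => 64 ^ (1024 * k - i) * (1024 * k).choose i)
      (fun _ _ => Nat.zero_le _) (mem_range.2 (by omega))
  have h2 : (65 : ℕ) ^ (1024 * k) ≤ 2 ^ (32 * k) * 64 ^ (1024 * k) := by
    have : (65 : ℕ) ^ 32 ≤ 2 * 64 ^ 32 := by norm_num
    calc (65 : ℕ) ^ (1024 * k) = (65 ^ 32) ^ (32 * k) := by rw [← pow_mul]; ring_nf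
      _ ≤ (2 * 64 ^ 32) ^ (32 * k) := Nat.pow_le_pow_left this _
      _ = _ := by rw [mul_pow, ← pow_mul]; ring_nf
  have h3 : (2 : ℕ) ^ (32 * k) * 64 ^ (1024 * k) = 2 ^ (38 * k) * 64 ^ (1024 * k - k) := by
    rw [show (64 : ℕ) = 2 ^ 6 by norm_num, ← pow_mul, ← pow_mul, ← pow_add, ← pow_add]
    congr 1
    omega
  exact Nat.le_of_mul_le_mul_right (h1.trans (h2.trans h3.le)) (by positivity)

/-- A fixed-point-free involution moves most words far in edit distance. -/
lemma far_involution (k n N : ℕ) (hN : N = 1024 * k) (hk : 1 ≤ k) (hn : N ≤ n)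
    (g : Fin N → Fin N) (hg : ∀ v, g (g v) = v) (hne : ∀ v, g v ≠ v) :
    k * 2 ^ N ≤ 2 * ∑ x : Fin N → Bool,
      ED (List.ofFn (padWord n x)) (List.ofFn (padWord n (x ∘ g))) := by
  classical
  set d : (Fin N → Bool) → ℕ := fun x =>
    ED (List.ofFn (padWord n x)) (List.ofFn (padWord n (x ∘ g))) with hd
  set pairs : Finset (Finset (Fin N) × Finset (Fin N)) :=
    (univ : Finset (Fin N)).powersetCard (N - k) ×ˢ (univ : Finset (Fin N)).powersetCard (N - k)
  set near := univ.filter fun x => d x ≤ k with hnear
  have hsub : near ⊆ pairs.attach.biUnion fun P => univ.filter fun x =>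
      ∀ i, x (P.1.1.orderEmbOfFin (mem_powersetCard.1 (mem_product.1 P.2).1).2 i) =
        x (g (P.1.2.orderEmbOfFin (mem_powersetCard.1 (mem_product.1 P.2).2).2 i)) := by
    intro x hx
    simp only [hnear, hd, mem_filter, mem_univ, true_and] at hx
    obtain ⟨p, q, hpq⟩ := matching_of_ed hn x (x ∘ g) hx
    have hp : univ.map p.toEmbedding ∈ (univ : Finset (Fin N)).powersetCard (N - k) := by simp
    have hq : univ.map q.toEmbedding ∈ (univ : Finset (Fin N)).powersetCard (N - k) := by simp
    refine mem_biUnion.2 ⟨⟨(_, _), mem_product.2 ⟨hp, hq⟩⟩, mem_attach _ _, ?_⟩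
    simp only [mem_filter, mem_univ, true_and]
    intro i
    rw [← orderEmbOfFin_unique (f := fun i => p i) _ (fun i => by simp) p.strictMono,
      ← orderEmbOfFin_unique (f := fun i => q i) _ (fun i => by simp) q.strictMono]
    exact hpq i
  have hpairs : pairs.card ≤ 2 ^ (76 * k) := by
    rw [card_product, card_powersetCard, card_univ, Fintype.card_fin,
      Nat.choose_symm (by omega), show 76 * k = 38 * k + 38 * k by omega, pow_add]
    rw [hN]
    exact Nat.mul_le_mul (choose_bound k) (choose_bound k)
  have hnearc : near.card ≤ 2 ^ (76 * k) * 2 ^ (N - 170 * k) := by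
    refine (card_le_card hsub).trans (card_biUnion_le.trans ?_)
    refine (sum_le_card_nsmul _ _ (2 ^ (N - 170 * k)) fun P _ => ?_).trans ?_
    · obtain ⟨s, hs, hle⟩ := card_solutions g hg hne
        (P.1.1.orderEmbOfFin (mem_powersetCard.1 (mem_product.1 P.2).1).2)
        (P.1.2.orderEmbOfFin (mem_powersetCard.1 (mem_product.1 P.2).2).2)
      exact hle.trans (Nat.pow_le_pow_right (by norm_num) (by omega))
    · rw [card_attach, smul_eq_mul]
      exact Nat.mul_le_mul_right _ hpairs
  have hhalf : 2 * near.card ≤ 2 ^ N := by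
    refine (Nat.mul_le_mul_left 2 hnearc).trans ?_
    rw [← pow_add, ← pow_succ']
    exact Nat.pow_le_pow_right (by norm_num) (by omega)
  have hfar : (k + 1) * (2 ^ N - near.card) ≤ ∑ x, d x := by
    calc (k + 1) * (2 ^ N - near.card) = ∑ x ∈ nearᶜ, (k + 1) := by
          simp [card_compl, mul_comm]
      _ ≤ ∑ x ∈ nearᶜ, d x := sum_le_sum fun x hx => by
          simp only [hnear, mem_compl, mem_filter, mem_univ, true_and] at hx
          omega
      _ ≤ _ := sum_le_sum_of_subset (subset_univ _)
  have h1 : k * 2 ^ N ≤ 2 * ((k + 1) * (2 ^ N - near.card)) := by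
    calc k * 2 ^ N ≤ (k + 1) * (2 * (2 ^ N - near.card)) := Nat.mul_le_mul (by omega) (by omega)
      _ = _ := by ring
  exact h1.trans (Nat.mul_le_mul_left 2 hfar)

theorem far : FarStmt := by
  refine ⟨1 / 2048, by norm_num, 10, fun m a hm ha n hn g hg => ?_⟩
  set R := 2 ^ a with hR
  have hR0 : 0 < R := by positivity
  have hinv : ∀ v, g (g v) = v := by
    intro v
    apply Fin.ext
    have h1 := hg v
    have h2 := hg (g v)
    by_cases hv : (v : ℕ) / R % 2 = 0
    · rw [if_pos hv] at h1
      rw [h1, Nat.add_div_right _ hR0, if_neg (by omega)] at h2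
      omega
    · rw [if_neg hv] at h1
      have hge : R ≤ (v : ℕ) := by
        by_contra hlt
        rw [Nat.div_eq_of_lt (not_le.1 hlt)] at hv
        omega
      have : ((v : ℕ) - R) / R = (v : ℕ) / R - 1 := by
        simpa using Nat.sub_mul_div (v : ℕ) R 1
      rw [h1, this, if_pos (by omega)] at h2
      omega
  have hne : ∀ v, g v ≠ v := by
    intro v e
    have h1 := hg v
    rw [e] at h1
    by_cases hv : (v : ℕ) / R % 2 = 0
    · rw [if_pos hv] at h1; omega
    · rw [if_neg hv] at h1
      by_contra
      have : (v : ℕ) < R ∨ R ≤ (v : ℕ) := lt_or_ge _ _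
      rcases this with h | h
      · rw [Nat.div_eq_of_lt h] at hv; omega
      · omega
  obtain ⟨k, hk⟩ : ∃ k, k = 2 ^ (m - 10) := ⟨_, rfl⟩
  have hk1 : 1 ≤ k := hk ▸ Nat.one_le_two_pow
  have hmk : 2 ^ m = 1024 * k := by
    rw [hk, show (1024 : ℕ) = 2 ^ 10 by norm_num, ← pow_add]
    congr 1
    omega
  have main := far_involution k n (2 ^ m) hmk hk1 hn g hinv hne
  have h := (Nat.cast_le (α := ℝ)).2 main
  push_cast at h
  have e : (2 : ℝ) ^ m = 1024 * (k : ℝ) := by exact_mod_cast hmk
  rw [e]
  nlinarith [h]

end Vale.Agent.P238
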