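import Mathlib

/-!
# P238: edit distance of finite words
-/

namespace Vale.Agent.P238

variable {α : Type*}

/-- One single-symbol insertion, deletion or substitution. -/
inductive EditStep : List α → List α → Prop
  | ins (l r : List α) (a : α) : EditStep (l ++ r) (l ++ a :: r)
  | del (l r : List α) (a : α) : EditStep (l ++ a :: r) (l ++ r)
  | sub (l r : List α) (a b : α) : EditStep (l ++ a :: r) (l ++ b :: r)

/-- `y` is obtained from `x` by exactly `k` single-symbol operations. -/
inductive EditChain : ℕ → List α → List α → Prop
  | nil (x : List α) : EditChain 0 x x
  | cons {k : ℕ} {x y z : List α} : EditStep x y → EditChain k y z → EditChain (k + 1) x z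

/-- Edit distance: the least number of operations transforming `x` into `y`. -/
noncomputable def ED (x y : List α) : ℕ := sInf {k | EditChain k x y}

/-- A binary word of length `N` padded by zeros to length `n`. -/
def padWord {N : ℕ} (n : ℕ) (x : Fin N → Bool) : Fin n → Bool :=
  fun i => if h : (i : ℕ) < N then x ⟨i, h⟩ else false

end Vale.Agent.P238
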