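import Mathlib

/-!
# P238: the choice of the dyadic parameters
-/

namespace Vale.Agent.P238

lemma sq_le_two_pow {k : ℕ} (hk : 32 ≤ k) : (8 * k + 8) ^ 2 ≤ 2 ^ k := by
  induction k, hk using Nat.le_induction with
  | base => norm_num
  | succ k hk ih => rw [pow_succ 2 k]; nlinarith

lemma clog_small {m : ℕ} (hm : 256 ≤ m) : 8 * Nat.clog 2 (m * m) ≤ m := by
  have h1 : m * m ≤ 2 ^ (m / 8) := by
    refine le_trans ?_ (sq_le_two_pow (by omega : 32 ≤ m / 8))
    have : m ≤ 8 * (m / 8) + 8 := by omega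
    nlinarith
  have := Nat.clog_le_of_le_pow h1
  omega

/-- With `m = log₂ n`, `r = m / 2`, `l = clog (m²)` and `K = (m - r) / (2 l)`,
`r K ≥ (log n)² / (200 log log n)`. -/
lemma growth {n : ℕ} (hn : 2 ^ 256 ≤ n) :
    (Real.log n) ^ 2 / Real.log (Real.log n) ≤
      200 * (((Nat.log 2 n / 2 : ℕ) : ℝ) *
        (((Nat.log 2 n - Nat.log 2 n / 2) / (2 * Nat.clog 2 (Nat.log 2 n * Nat.log 2 n)) : ℕ) : ℝ)) := by
  set m := Nat.log 2 n with hm
  set l := Nat.clog 2 (m * m) with hl
  set r := m / 2 with hr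
  set K := (m - r) / (2 * l) with hK
  have hm256 : 256 ≤ m := Nat.le_log_of_pow_le (by norm_num) hn
  have hl0 : 0 < l := Nat.clog_pos (by norm_num) (by nlinarith)
  have h8 : 8 * l ≤ m := clog_small hm256
  -- natural number estimates
  have hK1 : m ≤ 8 * l * K := by
    have h1 := Nat.div_add_mod (m - r) (2 * l)
    have h2 : (m - r) % (2 * l) < 2 * l := Nat.mod_lt _ (by omega)
    rw [← hK] at h1
    have : 8 * l * K = 4 * (2 * l * K) := by ring
    omega
  have hr3 : m ≤ 3 * r := by omega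
  have hnat : m * m ≤ 24 * l * (r * K) := by
    calc m * m ≤ (3 * r) * (8 * l * K) := Nat.mul_le_mul hr3 hK1
      _ = _ := by ring
  have hup : (n : ℝ) ≤ (2 : ℝ) ^ (m + 1) := by
    exact_mod_cast (Nat.lt_pow_succ_log_self (by norm_num) n).le
  have hlow : (2 : ℝ) ^ m ≤ n := by
    exact_mod_cast Nat.pow_log_le_self 2 (by omega : n ≠ 0)
  have hm' : (256 : ℝ) ≤ m := by exact_mod_cast hm256
  have hlog2 : (0.69 : ℝ) ≤ Real.log 2 := by
    have := Real.log_two_gt_d9
    norm_num at this ⊢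
    linarith
  have hlog2' : Real.log 2 ≤ 0.7 := by
    have := Real.log_two_lt_d9
    norm_num at this ⊢
    linarith
  have hn0 : (0 : ℝ) < n := lt_of_lt_of_le (by positivity) hlow
  have hL1 : (m : ℝ) * Real.log 2 ≤ Real.log n := by
    rw [← Real.log_pow]
    exact Real.log_le_log (by positivity) hlow
  have hL2 : Real.log n ≤ m := by
    have := Real.log_le_log hn0 hup
    rw [Real.log_pow] at this
    push_cast at this
    nlinarith
  have hlm : 8 * Real.log 2 ≤ Real.log m := by
    have : (8 : ℝ) * Real.log 2 = Real.log ((2 : ℝ) ^ 8) := by rw [Real.log_pow]; norm_num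
    rw [this]
    exact Real.log_le_log (by positivity) (by norm_num; exact hm256)
  have hLpos : 0 < Real.log n := by nlinarith
  have hLL : Real.log m / 2 ≤ Real.log (Real.log n) := by
    have h1 : Real.log ((m : ℝ) / 2) ≤ Real.log (Real.log n) :=
      Real.log_le_log (by positivity) (by nlinarith)
    rw [Real.log_div (by positivity) (by norm_num)] at h1
    linarith
  have hl2 : (l : ℝ) ≤ 4 * Real.log m := by
    have h1 : 2 ^ (l - 1) < m * m := Nat.pow_pred_clog_lt_self (by norm_num) (by nlinarith)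
    have h2 : ((2 : ℝ) ^ (l - 1)) ≤ (m : ℝ) ^ 2 := by
      rw [sq]; exact_mod_cast h1.le
    have h3 := Real.log_le_log (by positivity) h2
    rw [Real.log_pow, Real.log_pow, Nat.cast_sub hl0] at h3
    push_cast at h3
    nlinarith
  have hLLpos : 0 < Real.log (Real.log n) := by linarith
  rw [div_le_iff₀ hLLpos]
  have hnat' : (m : ℝ) * m ≤ 24 * l * ((r : ℝ) * K) := by exact_mod_cast hnat
  have hrK : (0 : ℝ) ≤ (r : ℝ) * K := by positivity
  have h4 : (l : ℝ) ≤ 8 * Real.log (Real.log n) := by linarith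
  have h5 : 24 * (l : ℝ) * ((r : ℝ) * K) ≤ 24 * (8 * Real.log (Real.log n)) * ((r : ℝ) * K) := by
    gcongr
  nlinarith

end Vale.Agent.P238
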