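import Vale.Agent.P238.Defs
import Vale.Agent.P238.EditDefs

/-!
# P238: interfaces between the modules
-/

namespace Vale.Agent.P238

open Finset

/-- Module A: Krauthgamer–Rabani inequality inside one block `range e` of `2 ^ r` positions. -/
def BlockStmt : Prop :=
  ∃ C : ℝ, 0 ≤ C ∧ ∀ (r : ℕ) (ι : Type) [Fintype ι] [DecidableEq ι] (e : Fin (2 ^ r) ↪ ι)
    (p : ι ≃ ι), (∀ j, p (e j) = e (rot _ j)) → (∀ i, (∀ j, e j ≠ i) → p i = i) →
    ∀ f : (ι → Bool) → ℝ, Boolean01 f →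
      (r : ℝ) * mass f (fun S => (S ∩ univ.map e).Nonempty) ≤
        C * ((∑ j, infl f (e j)) + 2 ^ r * dis f p)

/-- Permutation of the middle coordinate. -/
def swapMap {ι β γ : Type*} {W : ℕ} (e : β × Fin W × γ ≃ ι) (σ : Fin W → Fin W) : ι → ι :=
  fun i => e ((e.symm i).1, σ (e.symm i).2.1, (e.symm i).2.2)

/-- Independent rotation of each outer block. -/
def rhoMap {ι β γ : Type*} {W Λ : ℕ} [NeZero W] (e : β × Fin W × γ ≃ ι) (t : β → Fin Λ) : ι → ι :=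
  fun i => e ((e.symm i).1, (e.symm i).2.1 + Fin.ofNat W (t (e.symm i).1), (e.symm i).2.2)

/-- The outer occupancy is smaller than the middle occupancy. -/
def Merges {ι β γ : Type*} [DecidableEq β] {W : ℕ} (e : β × Fin W × γ ≃ ι) (S : Finset ι) :
    Prop :=
  (S.image fun i => (e.symm i).1).card < (S.image fun i => ((e.symm i).1, (e.symm i).2.1)).card

instance {ι β γ : Type*} [DecidableEq β] {W : ℕ} (e : β × Fin W × γ ≃ ι) :
    DecidablePred (Merges e) := fun _ => Nat.decLt _ _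

/-- Module B: the inequality at one scale. -/
def ScaleStmt : Prop :=
  ∃ C : ℝ, 0 ≤ C ∧ ∀ (ι β γ : Type) [Fintype ι] [DecidableEq ι] [Fintype β] [DecidableEq β]
    [Fintype γ] (W Λ : ℕ) [NeZero W], 0 < Λ → Λ ≤ W →
    ∀ (e : β × Fin W × γ ≃ ι) (σ : Fin W ≃ Fin W), (∀ w, σ w = w + 1 ∨ σ w = w - 1) →
    ∀ f : (ι → Bool) → ℝ, Boolean01 f →
      dis f (swapMap e σ) ≤
        C * ((∑ t : β → Fin Λ, dis f (rhoMap e t)) / (Λ : ℝ) ^ Fintype.card β +
          mass f (Merges e) + (∑ i, infl f i) / (Λ : ℝ))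

/-- Module C, upper estimate: a monotone partial matching gives few edits. -/
def MatchStmt : Prop :=
  ∀ (n : ℕ) (g : Fin n → Fin n) (K : Finset (Fin n)), StrictMonoOn g ↑K →
    ∀ x : Fin n → Bool, ED (List.ofFn x) (List.ofFn (x ∘ g)) ≤ 2 * (n - K.card)

/-- Module C, lower estimate: swapping adjacent `2 ^ a`-blocks is far on average. -/
def FarStmt : Prop :=
  ∃ c : ℝ, 0 < c ∧ ∃ m₀ : ℕ, ∀ m a : ℕ, m₀ ≤ m → a < m → ∀ n, 2 ^ m ≤ n →
    ∀ g : Fin (2 ^ m) → Fin (2 ^ m),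
      (∀ i, (g i : ℕ) = if (i : ℕ) / 2 ^ a % 2 = 0 then (i : ℕ) + 2 ^ a else (i : ℕ) - 2 ^ a) →
      c * 2 ^ m * 2 ^ (2 ^ m) ≤
        ∑ x : Fin (2 ^ m) → Bool,
          (ED (List.ofFn (padWord n x)) (List.ofFn (padWord n (x ∘ g))) : ℝ)

end Vale.Agent.P238
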