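import Vale.Agent.P238.Defs

/-!
# P238: from Boolean functions to real functions and to `ℓ₁`
-/

namespace Vale.Agent.P238

open Finset

/-- Layer-cake weights on a finite set of values. -/
lemma exists_weights (J : Finset ℝ) : ∃ w : ℝ → ℝ, ∃ c : ℝ,
    (∀ v ∈ J, 0 ≤ w v) ∧ ∀ p ∈ J, (∑ v ∈ J, if v ≤ p then w v else 0) = p - c := by
  classical
  induction J using Finset.induction_on_max with
  | empty => exact ⟨fun _ => 0, 0, by simp, by simp⟩
  | insert M J hM ih =>
    obtain ⟨w, c, hw, hsum⟩ := ih
    have hMJ : M ∉ J := fun h => lt_irrefl _ (hM M h)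
    by_cases hJ : J.Nonempty
    · set top := J.max' hJ with htop
      have htopJ : top ∈ J := J.max'_mem hJ
      refine ⟨Function.update w M (M - top), c, ?_, ?_⟩
      · intro v hv
        rcases Finset.mem_insert.1 hv with rfl | hv
        · simp [(hM top htopJ).le]
        · have : v ≠ M := (hM v hv).ne
          simp [Function.update_of_ne this, hw v hv]
      · intro p hp
        rw [Finset.sum_insert hMJ]
        have hcongr : ∀ q, (∑ v ∈ J, if v ≤ q then Function.update w M (M - top) v else 0)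
            = ∑ v ∈ J, if v ≤ q then w v else 0 := by
          intro q
          refine Finset.sum_congr rfl fun v hv => ?_
          rw [Function.update_of_ne (hM v hv).ne]
        rcases Finset.mem_insert.1 hp with rfl | hp
        · have h2 : (∑ v ∈ J, if v ≤ p then Function.update w p (p - top) v else 0) = top - c := by
            rw [hcongr, ← hsum top htopJ]
            refine Finset.sum_congr rfl fun v hv => ?_
            rw [if_pos (hM v hv).le, if_pos (J.le_max' v hv)]
          rw [h2]
          simp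
        · rw [if_neg (not_le.2 (hM p hp)), hcongr, hsum p hp]
          simp
    · rw [Finset.not_nonempty_iff_eq_empty] at hJ
      subst hJ
      exact ⟨fun _ => 0, M, by simp, by simp⟩

/-- `|φ x - φ y|` is a positive combination of threshold indicators. -/
lemma layer {X : Type*} [Fintype X] (φ : X → ℝ) :
    ∃ (J : Finset ℝ) (w : ℝ → ℝ), (∀ v ∈ J, 0 ≤ w v) ∧ ∀ x y, |φ x - φ y| =
      ∑ v ∈ J, w v * |(if v ≤ φ x then (1 : ℝ) else 0) - (if v ≤ φ y then 1 else 0)| := by
  classical
  obtain ⟨w, c, hw, hsum⟩ := exists_weights (univ.image φ)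
  refine ⟨univ.image φ, w, hw, fun x y => ?_⟩
  wlog h : φ y ≤ φ x generalizing x y
  · rw [abs_sub_comm, this y x (le_of_not_ge h)]
    refine Finset.sum_congr rfl fun v _ => ?_
    rw [abs_sub_comm]
  have e : φ x - φ y = (∑ v ∈ univ.image φ, if v ≤ φ x then w v else 0)
      - (∑ v ∈ univ.image φ, if v ≤ φ y then w v else 0) := by
    rw [hsum _ (mem_image_of_mem φ (mem_univ x)), hsum _ (mem_image_of_mem φ (mem_univ y))]
    ring
  rw [abs_of_nonneg (sub_nonneg.2 h), e, ← Finset.sum_sub_distrib]
  refine Finset.sum_congr rfl fun v _ => ?_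
  by_cases h1 : v ≤ φ y
  · simp [h1, le_trans h1 h]
  · by_cases h2 : v ≤ φ x <;> simp [h1, h2]

variable {ι : Type*} [Fintype ι] [DecidableEq ι]

lemma avg_sum_mul {J : Type*} (s : Finset J) (w : J → ℝ) (g : J → (ι → Bool) → ℝ) :
    avg (fun x => ∑ v ∈ s, w v * g v x) = ∑ v ∈ s, w v * avg (g v) := by
  simp only [avg]
  rw [Finset.sum_comm, Finset.sum_div]
  refine Finset.sum_congr rfl fun v _ => ?_
  rw [← Finset.mul_sum, mul_div_assoc]

lemma avg_mono {g h : (ι → Bool) → ℝ} (hgh : ∀ x, g x ≤ h x) : avg g ≤ avg h := by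
  simp only [avg]
  gcongr with x
  exact hgh x

lemma avg_const (a : ℝ) : avg (fun _ : ι → Bool => a) = a := by
  simp [avg]

/-- A linear inequality between edge sums passes from indicators to real functions. -/
lemma extend_layer {P Q : Type*} (P₀ : Finset P) (Q₀ : Finset Q) (u : P → ℝ) (v : Q → ℝ)
    (p : P → (ι → Bool) → (ι → Bool)) (q : Q → (ι → Bool) → (ι → Bool))
    (h : ∀ f : (ι → Bool) → ℝ, Boolean01 f →
      ∑ j ∈ P₀, u j * avg (fun x => |f x - f (p j x)|) ≤
        ∑ j ∈ Q₀, v j * avg (fun x => |f x - f (q j x)|))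
    (φ : (ι → Bool) → ℝ) :
    ∑ j ∈ P₀, u j * avg (fun x => |φ x - φ (p j x)|) ≤
      ∑ j ∈ Q₀, v j * avg (fun x => |φ x - φ (q j x)|) := by
  classical
  obtain ⟨J, w, hw, hl⟩ := layer φ
  simp only [hl, avg_sum_mul, Finset.mul_sum]
  rw [Finset.sum_comm]
  rw [Finset.sum_comm (s := Q₀)]
  refine Finset.sum_le_sum fun t ht => ?_
  have := mul_le_mul_of_nonneg_left
    (h (fun x => if t ≤ φ x then 1 else 0) (fun x => by by_cases ht : t ≤ φ x <;> simp [ht]))
    (hw t ht)
  simp only [Finset.mul_sum] at this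
  simpa [mul_left_comm] using this

end Vale.Agent.P238
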