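import Vale.Agent.P238.Core
import Vale.Agent.P238.Layer

/-!
# P238: the multiscale inequality for maps into `ℓ₁`
-/

namespace Vale.Agent.P238

open Finset
open scoped ENNReal

/-- The space `ℓ₁`. -/
abbrev L1 := lp (fun _ : ℕ => ℝ) (1 : ℝ≥0∞)

lemma l1_norm (u : L1) : ‖u‖ = ∑' k, |u k| := by
  have := lp.norm_eq_tsum_rpow (p := (1 : ℝ≥0∞)) (by simp) u
  simpa using this

lemma l1_summable (u : L1) : Summable fun k => |u k| := by
  have := (lp.memℓp u).summable (p := (1 : ℝ≥0∞)) (by simp)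
  simpa using this

/-- Average movement of `F` under `T`. -/
noncomputable def disN {ι : Type*} [Fintype ι] [DecidableEq ι] (F : (ι → Bool) → L1)
    (T : (ι → Bool) → ι → Bool) : ℝ :=
  avg fun x => ‖F x - F (T x)‖

lemma hasSum_avg {ι : Type*} [Fintype ι] [DecidableEq ι] (F : (ι → Bool) → L1)
    (T : (ι → Bool) → ι → Bool) :
    HasSum (fun k => avg fun x => |F x k - F (T x) k|) (disN F T) := by
  unfold disN avg
  refine HasSum.div_const ?_ _
  refine hasSum_sum fun x _ => ?_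
  rw [l1_norm]
  have := (l1_summable (F x - F (T x))).hasSum
  simpa using this

theorem core_l1 (hA : BlockStmt) (hS : ScaleStmt) :
    ∃ C : ℝ, 0 ≤ C ∧ ∀ (D : Setup) (F : (Fin (2 ^ D.m) → Bool) → L1),
      ∑ s, (D.r : ℝ) * disN F (fun x => x ∘ D.swp s) ≤
        C * ((1 + (D.r * D.K : ℝ) / 2 ^ D.l) * (∑ i, disN F (flipAt i)) +
          (∑ B, (2 : ℝ) ^ D.r * disN F (fun x => x ∘ rotBlock D.fitBlock B)) +
          ∑ s, (D.r : ℝ) / ((2 : ℝ) ^ D.l) ^ (2 ^ D.outer s) *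
            ∑ t : Fin (2 ^ D.outer s) → Fin (2 ^ D.l), disN F (fun x => x ∘ D.rho s t)) := by
  obtain ⟨C, hC, hcore⟩ := core hA hS
  refine ⟨C, hC, fun D F => ?_⟩
  have coord : ∀ φ : (Fin (2 ^ D.m) → Bool) → ℝ,
      ∑ s, (D.r : ℝ) * avg (fun x => |φ x - φ (x ∘ D.swp s)|) ≤
        C * ((1 + (D.r * D.K : ℝ) / 2 ^ D.l) * (∑ i, avg fun x => |φ x - φ (flipAt i x)|) +
          (∑ B, (2 : ℝ) ^ D.r * avg fun x => |φ x - φ (x ∘ rotBlock D.fitBlock B)|) +
          ∑ s, (D.r : ℝ) / ((2 : ℝ) ^ D.l) ^ (2 ^ D.outer s) *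
            ∑ t : Fin (2 ^ D.outer s) → Fin (2 ^ D.l),
              avg fun x => |φ x - φ (x ∘ D.rho s t)|) := by
    intro φ
    have h1 := hcore D
    generalize (1 + (D.r * D.K : ℝ) / 2 ^ D.l) = Q at h1 ⊢
    have := extend_layer (ι := Fin (2 ^ D.m)) (univ : Finset (Fin D.K))
      (univ : Finset (Fin (2 ^ D.m) ⊕ Fin (2 ^ (D.m - D.r)) ⊕
        ((s : Fin D.K) × (Fin (2 ^ D.outer s) → Fin (2 ^ D.l)))))
      (fun _ => (D.r : ℝ))
      (Sum.elim (fun _ => C * Q)
        (Sum.elim (fun _ => C * (2 : ℝ) ^ D.r)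
          (fun st => C * ((D.r : ℝ) / ((2 : ℝ) ^ D.l) ^ (2 ^ D.outer st.1)))))
      (fun s x => x ∘ D.swp s)
      (Sum.elim (fun i => flipAt i)
        (Sum.elim (fun B x => x ∘ rotBlock D.fitBlock B) (fun st x => x ∘ D.rho st.1 st.2)))
      (fun f hf => by
        have := h1 f hf
        simpa [Fintype.sum_sum_type, Fintype.sum_sigma, dis, infl, Finset.mul_sum, mul_add,
          mul_assoc, add_assoc] using this) φ
    simpa [Fintype.sum_sum_type, Fintype.sum_sigma, Finset.mul_sum, mul_add, mul_assoc,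
      add_assoc] using this
  refine hasSum_le (L := SummationFilter.unconditional ℕ) (fun k => coord fun x => F x k) ?_ ?_
  · exact hasSum_sum fun s _ => (hasSum_avg F _).mul_left _
  · exact ((((hasSum_sum fun i _ => hasSum_avg F _).mul_left _).add
      (hasSum_sum fun B _ => (hasSum_avg F _).mul_left _)).add
      (hasSum_sum fun s _ => (hasSum_sum fun t _ => hasSum_avg F _).mul_left _)).mul_left C

end Vale.Agent.P238
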