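import Vale.Agent.P238.L1
import Vale.Agent.P238.Growth
import Vale.Agent.P238.Edit

/-!
# P238: assembly of the lower bound, given the block and scale inequalities
-/

namespace Vale.Agent.P238

open Finset

/-- The parameters used for words of length `n`. -/
def setupOf (n : ℕ) (hn : 2 ^ 256 ≤ n) : Setup where
  m := Nat.log 2 n
  r := Nat.log 2 n / 2
  l := Nat.clog 2 (Nat.log 2 n * Nat.log 2 n)
  K := (Nat.log 2 n - Nat.log 2 n / 2) / (2 * Nat.clog 2 (Nat.log 2 n * Nat.log 2 n))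
  hl := by
    have : 256 ≤ Nat.log 2 n := Nat.le_log_of_pow_le (by norm_num) hn
    exact Nat.clog_pos (by norm_num) (by nlinarith)
  hfit := by
    have := Nat.div_mul_le_self (Nat.log 2 n - Nat.log 2 n / 2)
      (2 * Nat.clog 2 (Nat.log 2 n * Nat.log 2 n))
    omega

variable {n : ℕ}

/-- A map of the cube that moves each word by at most `d` edits moves `F` by at most `b d`. -/
lemma disN_le {N : ℕ} (hN : N ≤ n) (f : (Fin n → Bool) → L1) (b : ℝ) (hb : 0 ≤ b)
    (hf : ∀ x y, ‖f x - f y‖ ≤ b * (ED (List.ofFn x) (List.ofFn y) : ℝ))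
    (T : (Fin N → Bool) → Fin N → Bool) (d : ℕ)
    (hT : ∀ x, ED (List.ofFn x) (List.ofFn (T x)) ≤ d) :
    disN (fun x => f (padWord n x)) T ≤ b * d := by
  refine le_trans (avg_mono fun x => ?_) (le_of_eq (avg_const _))
  refine le_trans (hf _ _) (mul_le_mul_of_nonneg_left ?_ hb)
  exact_mod_cast le_trans (ed_padWord_le hN x (T x)) (hT x)

lemma rotBlock_moves {m p r : ℕ} (h : p + r = m) (B : Fin (2 ^ p)) (x : Fin (2 ^ m) → Bool) :
    ED (List.ofFn x) (List.ofFn (x ∘ rotBlock h B)) ≤ 2 := by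
  set last : Fin (2 ^ r) := ⟨2 ^ r - 1, by have := Nat.two_pow_pos r; omega⟩ with hlast
  set K := univ.erase (blockEquiv h (B, last)) with hK
  have hmono : StrictMonoOn (rotBlock h B) ↑K := by
    intro i hi j hj hij
    obtain ⟨⟨b, u⟩, rfl⟩ := (blockEquiv h).surjective i
    obtain ⟨⟨c, v⟩, rfl⟩ := (blockEquiv h).surjective j
    simp only [hK, coe_erase, coe_univ, Set.mem_sdiff, Set.mem_univ, true_and,
      Set.mem_singleton_iff, EmbeddingLike.apply_eq_iff_eq, Prod.mk.injEq] at hi hj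
    rw [Fin.lt_def, rotBlock_apply, rotBlock_apply]
    simp only [blockEquiv_val]
    rw [Fin.lt_def, blockEquiv_val, blockEquiv_val] at hij
    simp only at hij
    have hval : ∀ (d : Fin (2 ^ p)) (z : Fin (2 ^ r)), ¬ (d = B ∧ z = last) →
        (((if d = B then rot _ z else z : Fin (2 ^ r)) : ℕ) = z + if d = B then 1 else 0) := by
      intro d z hz
      by_cases hd : d = B
      · have hne : (z : ℕ) + 1 < 2 ^ r := by
          have h1 : (z : ℕ) ≠ 2 ^ r - 1 := fun e => hz ⟨hd, Fin.ext e⟩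
          have := z.isLt
          omega
        rw [if_pos hd, if_pos hd, rot]
        have : NeZero (2 ^ r) := ⟨by positivity⟩
        rw [finRotate_apply, Fin.val_add, Fin.val_one', Nat.mod_eq_of_lt (by omega : 1 < 2 ^ r),
          Nat.mod_eq_of_lt hne]
      · simp [hd]
    rw [hval b u hi, hval c v hj]
    rcases lt_trichotomy (b : ℕ) c with hbc | hbc | hbc
    · have h1 := Nat.mul_le_mul_left (2 ^ r) (show (b : ℕ) + 1 ≤ c by omega)
      rw [Nat.mul_succ] at h1
      have hlt : (u : ℕ) + (if b = B then 1 else 0) < 2 ^ r := by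
        rw [← hval b u hi]; exact Fin.isLt _
      omega
    · have : b = c := Fin.ext hbc
      subst this
      omega
    · exfalso
      have h1 := Nat.mul_le_mul_left (2 ^ r) (show (c : ℕ) + 1 ≤ b by omega)
      rw [Nat.mul_succ] at h1
      have := v.isLt
      omega
  refine le_trans (match_le _ _ K hmono x) ?_
  rw [hK, card_erase_of_mem (mem_univ _), card_univ, Fintype.card_fin]
  omega

lemma rho_moves (D : Setup) (s : Fin D.K) (t : Fin (2 ^ D.outer s) → Fin (2 ^ D.l))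
    (x : Fin (2 ^ D.m) → Bool) :
    ED (List.ofFn x) (List.ofFn (x ∘ D.rho s t)) ≤ 2 * 2 ^ (D.m - D.l) := by
  set bad := univ.filter fun i => ¬ ((((splitEquiv (D.fit s)).symm i).2.1 : ℕ) +
    t ((splitEquiv (D.fit s)).symm i).1 < 2 ^ (2 * D.l)) with hbad
  have hmono : StrictMonoOn (D.rho s t) ↑(badᶜ) := by
    refine (rhoMap_monotoneOn (D.fit s) t).mono ?_
    intro i hi
    simpa [hbad] using hi
  refine le_trans (match_le _ _ badᶜ hmono x) ?_
  have h1 := rhoMap_wrap_card (D.fit s) t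
  rw [← hbad, ← pow_add, ← pow_add] at h1
  rw [card_compl, Fintype.card_fin]
  have h2 : bad.card ≤ 2 ^ D.m := by simpa using bad.card_le_univ
  have h3 : D.outer s + D.l + D.base s = D.m - D.l := by have := D.fit s; omega
  rw [h3] at h1
  omega

theorem lower_of_block_scale (hA : BlockStmt) (hS : ScaleStmt) :
    ∃ c : ℝ, 0 < c ∧ ∃ n₀ : ℕ, ∀ n, n₀ ≤ n → ∀ f : (Fin n → Bool) → L1, ∀ a b : ℝ, 0 < a →
      (∀ x y, a * (ED (List.ofFn x) (List.ofFn y) : ℝ) ≤ ‖f x - f y‖ ∧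
        ‖f x - f y‖ ≤ b * (ED (List.ofFn x) (List.ofFn y) : ℝ)) →
      c * (Real.log n) ^ 2 / Real.log (Real.log n) ≤ b / a := by
  obtain ⟨C, hC, hmain⟩ := core_l1 hA hS
  obtain ⟨c₀, hc₀, m₀, hfar⟩ := far
  refine ⟨c₀ / (1200 * (C + 1)), by positivity, max (2 ^ 256) (2 ^ m₀), fun n hn f a b ha hf => ?_⟩
  have hn1 : 2 ^ 256 ≤ n := le_trans (le_max_left _ _) hn
  have hn2 : 2 ^ m₀ ≤ n := le_trans (le_max_right _ _) hn
  set D := setupOf n hn1 with hD
  have hm : D.m = Nat.log 2 n := rfl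
  have hmm₀ : m₀ ≤ D.m := hm ▸ Nat.le_log_of_pow_le (by norm_num) hn2
  have hNn : 2 ^ D.m ≤ n := hm ▸ Nat.pow_log_le_self 2 (by have := Nat.two_pow_pos 256; omega)
  set F := fun x : Fin (2 ^ D.m) → Bool => f (padWord n x) with hF
  -- the stretch is nonnegative
  have hb : 0 ≤ b := by
    have hpos : 0 < n := by have := Nat.two_pow_pos 256; omega
    obtain ⟨y, hy⟩ : ∃ y : Fin n → Bool, y ≠ fun _ => false := ⟨fun _ => true, fun e => by
      simpa using congrFun e ⟨0, hpos⟩⟩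
    have h1 := (hf y fun _ => false)
    have h2 : 0 < (ED (List.ofFn y) (List.ofFn fun _ : Fin n => false) : ℝ) := by
      have : ED (List.ofFn y) (List.ofFn fun _ : Fin n => false) ≠ 0 := fun e =>
        hy (List.ofFn_injective (eq_of_ed_eq_zero e))
      exact_mod_cast Nat.pos_of_ne_zero this
    by_contra hneg
    have := mul_neg_of_neg_of_pos (not_le.1 hneg) h2
    linarith [norm_nonneg (f y - f fun _ => false), h1.2]
  have hlip : ∀ x y, ‖f x - f y‖ ≤ b * (ED (List.ofFn x) (List.ofFn y) : ℝ) := fun x y => (hf x y).2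
  have hN : (0 : ℝ) < 2 ^ D.m := by positivity
  -- left-hand side
  have hleft : (D.r : ℝ) * D.K * (a * c₀ * 2 ^ D.m) ≤
      ∑ s, (D.r : ℝ) * disN F (fun x => x ∘ D.swp s) := by
    have h1 : ∀ s : Fin D.K, a * c₀ * 2 ^ D.m ≤ disN F (fun x => x ∘ D.swp s) := by
      intro s
      have hfit := D.fit s
      have hl := D.hl
      have h2 := hfar D.m (D.base s) hmm₀ (by omega) n hNn (D.swp s)
        (fun i => swapMap_val (by omega) hfit i)
      have h3 : ∀ x, a * (ED (List.ofFn (padWord n x)) (List.ofFn (padWord n (x ∘ D.swp s))) : ℝ)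
          ≤ ‖F x - F (x ∘ D.swp s)‖ := fun x => (hf _ _).1
      refine le_trans ?_ (avg_mono h3)
      unfold avg
      rw [Fintype.card_fin, ← Finset.mul_sum, le_div_iff₀ (by positivity)]
      calc a * c₀ * 2 ^ D.m * 2 ^ 2 ^ D.m = a * (c₀ * 2 ^ D.m * 2 ^ 2 ^ D.m) := by ring
        _ ≤ _ := mul_le_mul_of_nonneg_left h2 ha.le
    calc (D.r : ℝ) * D.K * (a * c₀ * 2 ^ D.m) = ∑ _s : Fin D.K, (D.r : ℝ) * (a * c₀ * 2 ^ D.m) := by
          simp; ring
      _ ≤ _ := Finset.sum_le_sum fun s _ => mul_le_mul_of_nonneg_left (h1 s) (Nat.cast_nonneg _)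
  -- right-hand side
  have hflip : ∀ i, disN F (flipAt i) ≤ b := fun i => by
    simpa using disN_le hNn f b hb hlip (flipAt i) 1 (fun x => ed_ofFn_flip_le i x)
  have hrot : ∀ B, disN F (fun x => x ∘ rotBlock D.fitBlock B) ≤ b * 2 := fun B => by
    simpa using disN_le hNn f b hb hlip (fun x => x ∘ rotBlock D.fitBlock B) 2
      (rotBlock_moves D.fitBlock B)
  have hrho : ∀ s t, disN F (fun x => x ∘ D.rho s t) ≤ b * (2 * (2 ^ D.m / 2 ^ D.l : ℝ)) :=
    fun s t => by
      have h1 : D.l ≤ D.m := by have := D.fit s; omega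
      have := disN_le hNn f b hb hlip (fun x => x ∘ D.rho s t) _ (rho_moves D s t)
      refine this.trans (le_of_eq ?_)
      push_cast
      rw [eq_div_iff (by positivity) |>.2 (show (2 : ℝ) ^ (D.m - D.l) * 2 ^ D.l = 2 ^ D.m by
        rw [← pow_add, Nat.sub_add_cancel h1])]
  have hQ : (D.r * D.K : ℝ) / 2 ^ D.l ≤ 1 := by
    rw [div_le_one (by positivity)]
    have h1 : D.r * D.K ≤ 2 ^ D.l :=
      le_trans (Nat.mul_le_mul (Nat.div_le_self _ _)
        (le_trans (Nat.div_le_self _ _) (Nat.sub_le _ _))) (Nat.le_pow_clog (by norm_num) _)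
    exact_mod_cast h1
  have hQ0 : 0 ≤ (D.r * D.K : ℝ) / 2 ^ D.l := by positivity
  have hr1 : (1 + (D.r * D.K : ℝ) / 2 ^ D.l) * (∑ i, disN F (flipAt i)) ≤ 2 * b * 2 ^ D.m := by
    refine le_trans (mul_le_mul_of_nonneg_left (Finset.sum_le_sum fun i _ => hflip i) (by linarith)) ?_
    simp
    nlinarith [mul_nonneg hb hN.le]
  have hr2 : (∑ B, (2 : ℝ) ^ D.r * disN F (fun x => x ∘ rotBlock D.fitBlock B)) ≤ 2 * b * 2 ^ D.m := by
    refine le_trans (Finset.sum_le_sum fun B _ =>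
      mul_le_mul_of_nonneg_left (hrot B) (by positivity)) (le_of_eq ?_)
    simp only [sum_const, card_univ, Fintype.card_fin, nsmul_eq_mul]
    push_cast
    have := D.hfit
    rw [show (2 : ℝ) ^ D.m = 2 ^ (D.m - D.r) * 2 ^ D.r by rw [← pow_add, Nat.sub_add_cancel (by omega)]]
    ring
  have hr3 : (∑ s, (D.r : ℝ) / ((2 : ℝ) ^ D.l) ^ (2 ^ D.outer s) *
      ∑ t : Fin (2 ^ D.outer s) → Fin (2 ^ D.l), disN F (fun x => x ∘ D.rho s t)) ≤
      2 * b * 2 ^ D.m := by
    refine le_trans (Finset.sum_le_sum fun s _ => mul_le_mul_of_nonneg_left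
      (Finset.sum_le_sum fun t _ => hrho s t) (by positivity)) ?_
    simp only [sum_const, card_univ, Fintype.card_fun, Fintype.card_fin, nsmul_eq_mul]
    push_cast
    have e : ∀ (P X : ℝ), P ≠ 0 → (D.r : ℝ) / P * (P * X) = D.r * X := fun P X hP => by
      field_simp
    simp only [e _ _ (pow_ne_zero _ (pow_ne_zero _ (two_ne_zero (α := ℝ))))]
    simp only [sum_const, card_univ, Fintype.card_fin, nsmul_eq_mul]
    calc (D.K : ℝ) * ((D.r : ℝ) * (b * (2 * (2 ^ D.m / 2 ^ D.l))))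
        = ((D.r * D.K : ℝ) / 2 ^ D.l) * (2 * b * 2 ^ D.m) := by ring
      _ ≤ 1 * (2 * b * 2 ^ D.m) := mul_le_mul_of_nonneg_right hQ (by positivity)
      _ = _ := one_mul _
  have hkey : (D.r : ℝ) * D.K * (a * c₀ * 2 ^ D.m) ≤ C * (6 * b * 2 ^ D.m) :=
    hleft.trans ((hmain D F).trans (mul_le_mul_of_nonneg_left (by linarith) hC))
  have hkey' : (D.r : ℝ) * D.K * c₀ * a ≤ 6 * C * b := by
    refine le_of_mul_le_mul_right ?_ hN
    linarith
  have hgrow := growth hn1
  have hprod : (200 : ℝ) * (((Nat.log 2 n / 2 : ℕ) : ℝ) *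
      (((Nat.log 2 n - Nat.log 2 n / 2) / (2 * Nat.clog 2 (Nat.log 2 n * Nat.log 2 n)) : ℕ) : ℝ)) =
      200 * ((D.r : ℝ) * D.K) := rfl
  rw [hprod] at hgrow
  rw [mul_div_assoc, div_mul_eq_mul_div, div_le_div_iff₀ (by positivity) ha]
  have h1 : c₀ * (Real.log n ^ 2 / Real.log (Real.log n)) * a ≤
      c₀ * (200 * ((D.r : ℝ) * D.K)) * a := by gcongr
  nlinarith [mul_nonneg hb hC]

end Vale.Agent.P238
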