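import Vale.Agent.P238.Basic
import Vale.Agent.P238.Interfaces

/-!
# P238: the inequality at one scale
-/

namespace Vale.Agent.P238

open Finset

section

variable {ι β γ : Type} {W : ℕ}

/-- A permutation of positions acting inside each outer block on the middle coordinate. -/
def blockPerm (e : β × Fin W × γ ≃ ι) (τ : β → Fin W ≃ Fin W) : ι ≃ ι where
  toFun i := e ((e.symm i).1, τ (e.symm i).1 (e.symm i).2.1, (e.symm i).2.2)
  invFun i := e ((e.symm i).1, (τ (e.symm i).1).symm (e.symm i).2.1, (e.symm i).2.2)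
  left_inv i := by simp
  right_inv i := by simp

variable [NeZero W]

/-- Translation by `u b` inside the block `b`. -/
def shiftPerm (e : β × Fin W × γ ≃ ι) (u : β → Fin W) : ι ≃ ι :=
  blockPerm e fun b => Equiv.addRight (u b)

variable [DecidableEq β] [DecidableEq ι]

omit [NeZero W] in
theorem outer_map (e : β × Fin W × γ ≃ ι) (τ : β → Fin W ≃ Fin W) (S : Finset ι) :
    ((S.map (blockPerm e τ).toEmbedding).image fun i => (e.symm i).1) =
      S.image fun i => (e.symm i).1 := by
  rw [Finset.map_eq_image, Finset.image_image]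
  exact Finset.image_congr fun i _ => by simp [blockPerm]

omit [NeZero W] in
theorem merges_map (e : β × Fin W × γ ≃ ι) (τ : β → Fin W ≃ Fin W) (S : Finset ι) :
    Merges e (S.map (blockPerm e τ).toEmbedding) ↔ Merges e S := by
  unfold Merges
  rw [outer_map]
  have h : ((S.map (blockPerm e τ).toEmbedding).image
      fun i => ((e.symm i).1, (e.symm i).2.1)) =
      (S.image fun i => ((e.symm i).1, (e.symm i).2.1)).image
        fun bw => (bw.1, τ bw.1 bw.2) := by
    rw [Finset.map_eq_image, Finset.image_image, Finset.image_image]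
    exact Finset.image_congr fun i _ => by simp [blockPerm]
  have hinj : Function.Injective fun bw : β × Fin W => (bw.1, τ bw.1 bw.2) := ?_
  rw [h, Finset.card_image_of_injective _ hinj]
  rintro ⟨b, w⟩ ⟨b', w'⟩ hh
  simp only [Prod.mk.injEq] at hh
  obtain ⟨rfl, h2⟩ := hh
  simpa using h2

end

theorem sq_mean_le {α : Type*} (s : Finset α) (F : α → ℝ) :
    ((∑ x ∈ s, F x) / s.card) ^ 2 ≤ (∑ x ∈ s, F x ^ 2) / s.card := by
  rcases s.eq_empty_or_nonempty with rfl | hs
  · simp
  have hc : (0 : ℝ) < s.card := by exact_mod_cast hs.card_pos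
  rw [div_pow, div_le_div_iff₀ (by positivity) hc]
  nlinarith [sq_sum_le_card_mul_sum_sq (s := s) (f := F)]

section

variable {ι β : Type} {W Λ : ℕ} [NeZero W] [Fintype β] [DecidableEq β]

/-- The box of shift vectors with all entries below `Λ`. -/
def box (β : Type) [Fintype β] [DecidableEq β] (W Λ : ℕ) : Finset (β → Fin W) :=
  Fintype.piFinset fun _ => univ.filter fun w : Fin W => (w : ℕ) < Λ

omit [NeZero W] in
theorem mem_box {u : β → Fin W} : u ∈ box β W Λ ↔ ∀ b, (u b : ℕ) < Λ := by
  simp [box]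

theorem card_filter_lt (h : Λ ≤ W) :
    (univ.filter fun w : Fin W => (w : ℕ) < Λ).card = Λ := by
  rw [Fin.card_filter_val_lt, min_eq_right h]

theorem card_box (h : Λ ≤ W) : (box β W Λ).card = Λ ^ Fintype.card β := by
  simp [box, card_filter_lt h]

theorem sum_box (h : Λ ≤ W) (F : (β → Fin W) → ℝ) :
    ∑ t : β → Fin Λ, F (fun b => Fin.ofNat W (t b)) = ∑ u ∈ box β W Λ, F u := by
  refine Finset.sum_bij (fun t _ b => Fin.ofNat W (t b)) ?_ ?_ ?_ fun t _ => rfl
  · intro t _
    rw [mem_box]
    intro b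
    simp [Nat.mod_eq_of_lt (lt_of_lt_of_le (t b).2 h)]
  · intro t _ t' _ hh
    funext b
    have hb := congrArg Fin.val (congrFun hh b)
    simp [Nat.mod_eq_of_lt (lt_of_lt_of_le (t b).2 h),
      Nat.mod_eq_of_lt (lt_of_lt_of_le (t' b).2 h)] at hb
    exact Fin.ext hb
  · intro u hu
    refine ⟨fun b => ⟨u b, mem_box.1 hu b⟩, Finset.mem_univ _, ?_⟩
    funext b
    exact Fin.ext (by simp)

omit [NeZero W] in
theorem card_face (h : Λ ≤ W) (b : β) (a : Fin W) :
    ((box β W Λ).filter fun u => u b = a).card * Λ ≤ (box β W Λ).card := by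
  have h1 : (univ.filter fun w : Fin W => (w : ℕ) < Λ).card = Λ := by
    rw [Fin.card_filter_val_lt, min_eq_right h]
  suffices hp : (((box β W Λ).filter fun u => u b = a) ×ˢ
      (univ.filter fun w : Fin W => (w : ℕ) < Λ)).card ≤ (box β W Λ).card by
    rwa [Finset.card_product, h1] at hp
  refine Finset.card_le_card_of_injOn (fun q => Function.update q.1 b q.2) ?_ ?_
  · rintro ⟨u, k⟩ hq
    simp only [Finset.coe_product, Set.mem_prod, Finset.mem_coe, Finset.mem_filter] at hq
    simp only [Finset.mem_coe, mem_box]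
    intro b'
    rcases eq_or_ne b' b with rfl | hb
    · simpa using hq.2.2
    · simpa [hb] using mem_box.1 hq.1.1 b'
  · rintro ⟨u, k⟩ hq ⟨u', k'⟩ hq' hh
    simp only [Finset.coe_product, Set.mem_prod, Finset.mem_coe, Finset.mem_filter] at hq hq'
    simp only at hh
    have hk : k = k' := by simpa using congrFun hh b
    have hu : u = u' := by
      funext b'
      rcases eq_or_ne b' b with rfl | hb
      · rw [hq.1.2, hq'.1.2]
      · simpa [hb] using congrFun hh b'
    rw [hk, hu]

theorem card_exit (h : Λ ≤ W) (A : Finset β) (δ : β → Fin W)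
    (h0 : ∀ b ∉ A, δ b = 0) (h1 : ∀ b ∈ A, δ b = 1 ∨ δ b = -1) :
    (((box β W Λ).image fun u => u + δ) \ box β W Λ).card * Λ ≤
      A.card * (box β W Λ).card := by
  let a : β → Fin W := fun b => if δ b = 1 then Fin.ofNat W (Λ - 1) else 0
  have hsub : ((box β W Λ).image fun u => u + δ) \ box β W Λ ⊆
      (A.biUnion fun b => (box β W Λ).filter fun u => u b = a b).image fun u => u + δ := by
    intro v hv
    obtain ⟨hv1, hv2⟩ := Finset.mem_sdiff.1 hv
    obtain ⟨u, hu, rfl⟩ := Finset.mem_image.1 hv1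
    rw [mem_box] at hv2
    push Not at hv2
    obtain ⟨b, hb⟩ := hv2
    have hub := mem_box.1 hu b
    have hbA : b ∈ A := by
      by_contra hc
      simp [h0 b hc] at hb
      omega
    refine Finset.mem_image.2 ⟨u, Finset.mem_biUnion.2 ⟨b, hbA, Finset.mem_filter.2 ⟨hu, ?_⟩⟩, rfl⟩
    have hW : 0 < W := Nat.pos_of_ne_zero (NeZero.ne W)
    by_cases hd : δ b = 1
    · simp only [a, if_pos hd]
      apply Fin.ext
      simp only [Fin.val_ofNat]
      rw [Nat.mod_eq_of_lt (by omega)]
      by_contra hne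
      simp only [Pi.add_apply, hd, Fin.val_add, Fin.val_one'] at hb
      have hlt : (u b : ℕ) + 1 < Λ := by omega
      rw [Nat.add_mod_mod, Nat.mod_eq_of_lt (by omega)] at hb
      omega
    · simp only [a, if_neg hd]
      have hd' := (h1 b hbA).resolve_left hd
      apply Fin.ext
      by_contra hne
      simp only [Fin.val_zero] at hne
      have hlt : ((u + δ) b : ℕ) = (u b : ℕ) - 1 := by
        have hp : (u + δ) b = ⟨(u b : ℕ) - 1, by omega⟩ := by
          rw [Pi.add_apply, hd', ← sub_eq_add_neg, sub_eq_iff_eq_add]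
          apply Fin.ext
          rw [Fin.val_add, Fin.val_one', Nat.add_mod_mod, Nat.mod_eq_of_lt] <;>
            simp <;> omega
        rw [hp]
      omega
  calc (((box β W Λ).image fun u => u + δ) \ box β W Λ).card * Λ
      ≤ (∑ b ∈ A, ((box β W Λ).filter fun u => u b = a b).card) * Λ :=
        Nat.mul_le_mul_right _ ((Finset.card_le_card hsub).trans
          (Finset.card_image_le.trans Finset.card_biUnion_le))
    _ ≤ A.card * (box β W Λ).card := by
        rw [Finset.sum_mul, ← smul_eq_mul A.card, ← Finset.sum_const]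
        exact Finset.sum_le_sum fun b _ => card_face h b (a b)

theorem shift_diff (h : Λ ≤ W) (hΛ : 0 < Λ) (A : Finset β) (δ : β → Fin W)
    (h0 : ∀ b ∉ A, δ b = 0) (h1 : ∀ b ∈ A, δ b = 1 ∨ δ b = -1) (G : (β → Fin W) → ℝ) :
    ((∑ u ∈ box β W Λ, G u) / (box β W Λ).card -
        (∑ u ∈ box β W Λ, G (u + δ)) / (box β W Λ).card) ^ 2 ≤
      2 * (A.card / Λ) * ((∑ u ∈ box β W Λ, G u ^ 2) / (box β W Λ).card +
        (∑ u ∈ box β W Λ, G (u + δ) ^ 2) / (box β W Λ).card) := by
  classical
  have hinj : Function.Injective fun u : β → Fin W => u + δ := add_left_injective δ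
  set T := box β W Λ with hT
  set T' := T.image fun u => u + δ with hT'
  have hN : (0 : ℝ) < T.card := by
    rw [hT, card_box h]
    exact_mod_cast pow_pos hΛ _
  have hΛR : (0 : ℝ) < Λ := by exact_mod_cast hΛ
  have e1 : ∑ u ∈ T, G (u + δ) = ∑ v ∈ T', G v :=
    (Finset.sum_image fun x _ y _ hxy => hinj hxy).symm
  have e2 : ∑ u ∈ T, G (u + δ) ^ 2 = ∑ v ∈ T', G v ^ 2 :=
    (Finset.sum_image (f := fun v => G v ^ 2) fun x _ y _ hxy => hinj hxy).symm
  rw [e1, e2]
  have hm := card_exit h A δ h0 h1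
  have hm' : ((T \ T').card : ℝ) * Λ ≤ A.card * T.card := by
    rw [Finset.card_sdiff_comm (Finset.card_image_of_injective T hinj).symm]
    exact_mod_cast hm
  have hm'' : ((T' \ T).card : ℝ) * Λ ≤ A.card * T.card := by exact_mod_cast hm
  have d : ∑ u ∈ T, G u - ∑ v ∈ T', G v =
      ∑ u ∈ T \ T', G u - ∑ v ∈ T' \ T, G v := Finset.sum_sdiff_sub_sum_sdiff.symm
  have key : ∀ (X Y : Finset (β → Fin W)), X ⊆ Y → (X.card : ℝ) * Λ ≤ A.card * T.card →
      (∑ u ∈ X, G u) ^ 2 * Λ ≤ A.card * T.card * ∑ u ∈ Y, G u ^ 2 := by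
    intro X Y hXY hX
    have c := sq_sum_le_card_mul_sum_sq (s := X) (f := G)
    calc (∑ u ∈ X, G u) ^ 2 * Λ ≤ (X.card * ∑ u ∈ X, G u ^ 2) * Λ :=
          mul_le_mul_of_nonneg_right c hΛR.le
      _ = (X.card * (Λ : ℝ)) * ∑ u ∈ X, G u ^ 2 := by ring
      _ ≤ (A.card * T.card) * ∑ u ∈ Y, G u ^ 2 := by
          gcongr
  have k1 := key (T \ T') T Finset.sdiff_subset hm'
  have k2 := key (T' \ T) T' Finset.sdiff_subset hm''
  rw [← sub_div, d, ← add_div, div_pow, mul_comm (2 : ℝ), div_mul_eq_mul_div,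
    div_mul_div_comm, div_le_div_iff₀ (by positivity) (by positivity)]
  nlinarith [sq_nonneg (∑ u ∈ T \ T', G u + ∑ v ∈ T' \ T, G v),
    mul_nonneg (mul_nonneg hΛR.le hN.le)
      (sq_nonneg (∑ u ∈ T \ T', G u + ∑ v ∈ T' \ T, G v)),
    mul_le_mul_of_nonneg_right k1 hN.le, mul_le_mul_of_nonneg_right k2 hN.le]

end

section

variable {ι β γ : Type} [Fintype ι] [DecidableEq ι] [Fintype β] [DecidableEq β]
  {W Λ : ℕ} [NeZero W]

/-- Mean over the box of squared shifted coefficients. -/
noncomputable def meanSq (e : β × Fin W × γ ≃ ι) (f : (ι → Bool) → ℝ) (Λ : ℕ) (S : Finset ι) :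
    ℝ :=
  (∑ u ∈ box β W Λ, coef f (S.map (shiftPerm e u).symm.toEmbedding) ^ 2) / (box β W Λ).card

theorem diff_bound (e : β × Fin W × γ ≃ ι) (σ : Fin W ≃ Fin W)
    (hσ : ∀ w, σ w = w + 1 ∨ σ w = w - 1) (hΛ : 0 < Λ) (hΛW : Λ ≤ W)
    (f h : (ι → Bool) → ℝ)
    (coef_h : ∀ S, coef h S =
      (∑ u ∈ box β W Λ, coef f (S.map (shiftPerm e u).symm.toEmbedding)) / (box β W Λ).card)
    (S : Finset ι) :
    (coef h S - coef h (S.map (blockPerm e fun _ => σ).symm.toEmbedding)) ^ 2 ≤
      2 * ((S.card : ℝ) / Λ + if Merges e S then 1 else 0) *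
        (meanSq e f Λ S + meanSq e f Λ (S.map (blockPerm e fun _ => σ).symm.toEmbedding)) := by
  set G : Finset ι → (β → Fin W) → ℝ :=
    fun S u => coef f (S.map (shiftPerm e u).symm.toEmbedding) with hG
  set T := box β W Λ with hT
  set sw := blockPerm e (fun _ => σ) with hsw
  set S' := S.map sw.symm.toEmbedding with hS'
  have a1 : coef h S ^ 2 ≤ meanSq e f Λ S := by
    rw [coef_h]
    exact sq_mean_le T _
  have a2 : coef h S' ^ 2 ≤ meanSq e f Λ S' := by
    rw [coef_h]
    exact sq_mean_le T _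
  have a3 : (0 : ℝ) ≤ meanSq e f Λ S + meanSq e f Λ S' := by nlinarith [sq_nonneg (coef h S), sq_nonneg (coef h S')]
  have a4 : (0 : ℝ) ≤ (S.card : ℝ) / Λ := by positivity
  by_cases hM : Merges e S
  · rw [if_pos hM]
    nlinarith [sq_nonneg (coef h S + coef h S'), mul_nonneg a4 a3]
  · set A := S.image fun i => (e.symm i).1 with hA
    have hinj : Set.InjOn Prod.fst
        ((S.image fun i => ((e.symm i).1, (e.symm i).2.1) : Finset (β × Fin W)) :
          Set (β × Fin W)) := by
      apply Finset.injOn_of_card_image_eq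
      refine le_antisymm Finset.card_image_le ?_
      rw [Finset.image_image]
      exact not_lt.1 hM
    let δ : β → Fin W := fun b =>
      if hb : b ∈ A then
        (e.symm (Finset.mem_image.1 hb).choose).2.1 -
          σ.symm (e.symm (Finset.mem_image.1 hb).choose).2.1
      else 0
    have hδ : ∀ i ∈ S, (e.symm i).2.1 - δ (e.symm i).1 = σ.symm (e.symm i).2.1 := by
      intro i hi
      have hb : (e.symm i).1 ∈ A := Finset.mem_image_of_mem _ hi
      obtain ⟨hj, hj'⟩ := (Finset.mem_image.1 hb).choose_spec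
      have heq := hinj (Finset.mem_coe.2 (Finset.mem_image_of_mem _ hj))
        (Finset.mem_coe.2 (Finset.mem_image_of_mem _ hi)) hj'
      simp only [Prod.mk.injEq] at heq
      simp only [δ, dif_pos hb, heq.2, sub_sub_cancel]
    have hδ0 : ∀ b ∉ A, δ b = 0 := fun b hb => by simp only [δ, dif_neg hb]
    have hδ1 : ∀ b ∈ A, δ b = 1 ∨ δ b = -1 := by
      intro b hb
      simp only [δ, dif_pos hb]
      set v := (e.symm (Finset.mem_image.1 hb).choose).2.1
      rcases hσ (σ.symm v) with q | q <;> rw [Equiv.apply_symm_apply] at q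
      · left
        rw [sub_eq_iff_eq_add, add_comm]
        exact q
      · right
        rw [sub_eq_iff_eq_add, add_comm, ← sub_eq_add_neg]
        exact q
    have hmap : ∀ u, G S' u = G S (u + δ) := by
      intro u
      simp only [hG, hS', Finset.map_map]
      congr 1
      rw [Finset.map_eq_image, Finset.map_eq_image]
      refine Finset.image_congr fun i hi => ?_
      simp only [hsw, Function.Embedding.trans_apply, Equiv.coe_toEmbedding,
        shiftPerm, blockPerm, Equiv.coe_fn_symm_mk, Equiv.symm_apply_apply,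
        Equiv.addRight_symm, Equiv.coe_addRight, Pi.add_apply]
      rw [← hδ i hi]
      congr 3
      abel
    have := shift_diff (G := G S) hΛW hΛ A δ hδ0 hδ1
    simp only [← hmap, ← hT] at this
    rw [← coef_h, ← coef_h] at this
    refine this.trans ?_
    rw [if_neg hM, add_zero]
    simp only [meanSq]
    gcongr
    exact_mod_cast Finset.card_image_le

end

theorem dis_eq_sq {ι : Type} [Fintype ι] [DecidableEq ι] (f : (ι → Bool) → ℝ) (hf : Boolean01 f)
    (p : ι → ι) : dis f p = avg fun x => (f x - f (x ∘ p)) ^ 2 := by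
  unfold dis
  congr 1
  funext x
  rcases hf x with a | a <;> rcases hf (x ∘ p) with b | b <;> rw [a, b] <;> norm_num

theorem avg_three {ι : Type} [Fintype ι] [DecidableEq ι] (f h : (ι → Bool) → ℝ)
    (P : (ι → Bool) → ι → Bool) :
    (avg fun x => (f x - f (P x)) ^ 2) ≤
      3 * (avg fun x => (f x - h x) ^ 2) + 3 * (avg fun x => (h x - h (P x)) ^ 2) +
        3 * (avg fun x => (h (P x) - f (P x)) ^ 2) := by
  simp only [avg, mul_div_assoc', Finset.mul_sum, ← add_div, ← Finset.sum_add_distrib]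
  gcongr with x
  nlinarith [sq_nonneg (f x - h x - (h x - h (P x))),
    sq_nonneg (h x - h (P x) - (h (P x) - f (P x))),
    sq_nonneg (f x - h x - (h (P x) - f (P x)))]

theorem scale : ScaleStmt := by
  refine ⟨12, by norm_num, ?_⟩
  intro ι β γ _ _ _ _ _ W Λ _ hΛ hΛW e σ hσ f hf
  classical
  set T := box β W Λ with hT
  have hTc : (T.card : ℝ) = (Λ : ℝ) ^ Fintype.card β := by
    rw [hT, card_box hΛW]
    push_cast
    rfl
  have hTpos : (0 : ℝ) < T.card := by
    rw [hTc]
    positivity
  set sw := blockPerm e (fun _ => σ) with hsw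
  set fu : (β → Fin W) → (ι → Bool) → ℝ := fun u x => f (x ∘ shiftPerm e u) with hfu
  set h : (ι → Bool) → ℝ := fun x => (∑ u ∈ T, fu u x) / T.card with hh
  set D : ℝ := (∑ t : β → Fin Λ, dis f (rhoMap e t)) / (Λ : ℝ) ^ Fintype.card β with hD
  have hD' : D = (∑ u ∈ T, avg fun x => (f x - fu u x) ^ 2) / T.card := by
    rw [hD, hTc, ← sum_box hΛW]
    congr 1
    refine Finset.sum_congr rfl fun t _ => ?_
    exact dis_eq_sq f hf (shiftPerm e fun b => Fin.ofNat W (t b))
  have avg_mono : ∀ g g' : (ι → Bool) → ℝ, (∀ x, g x ≤ g' x) → avg g ≤ avg g' := by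
    intro g g' hgg
    unfold avg
    gcongr
    exact hgg _
  -- averaging costs at most the mean rotation change
  have step1 : (avg fun x => (f x - h x) ^ 2) ≤ D := by
    calc (avg fun x => (f x - h x) ^ 2)
        ≤ avg fun x => (∑ u ∈ T, (f x - fu u x) ^ 2) / T.card := by
          refine avg_mono _ _ fun x => ?_
          refine le_trans (le_of_eq ?_) (sq_mean_le T fun u => f x - fu u x)
          rw [Finset.sum_sub_distrib, Finset.sum_const, nsmul_eq_mul, sub_div,
            mul_div_cancel_left₀ _ hTpos.ne']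
      _ = D := by
          rw [hD']
          simp only [avg, ← Finset.sum_div]
          rw [Finset.sum_comm, div_right_comm]
  -- coefficients of the average
  set G : Finset ι → (β → Fin W) → ℝ :=
    fun S u => coef f (S.map (shiftPerm e u).symm.toEmbedding) with hG
  have coef_h : ∀ S, coef h S = (∑ u ∈ T, G S u) / T.card := by
    intro S
    have hcp : ∀ u, G S u = coef (fun x => f (x ∘ shiftPerm e u)) S :=
      fun u => (coef_perm f _ S).symm
    simp only [hcp, coef, avg, hh, hfu, div_mul_eq_mul_div, Finset.sum_mul,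
      ← Finset.sum_div]
    rw [Finset.sum_comm, div_right_comm]
  set w : Finset ι → ℝ := fun S => (S.card : ℝ) / Λ + if Merges e S then 1 else 0 with hw
  have hw0 : ∀ S, 0 ≤ w S := fun S => by
    simp only [hw]
    positivity
  have hwinv : ∀ (τ : β → Fin W ≃ Fin W) (S : Finset ι),
      w (S.map (blockPerm e τ).toEmbedding) = w S := by
    intro τ S
    simp only [hw, Finset.card_map, merges_map]
  have hwinv' : ∀ (τ : β → Fin W ≃ Fin W) (S : Finset ι),
      w (S.map (blockPerm e τ).symm.toEmbedding) = w S := by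
    intro τ S
    have := hwinv (fun b => (τ b).symm) S
    exact this
  set msq : Finset ι → ℝ := fun S => (∑ u ∈ T, G S u ^ 2) / T.card with hsq
  have pointwise : ∀ S, (coef h S - coef h (S.map sw.symm.toEmbedding)) ^ 2 ≤
      2 * w S * (msq S + msq (S.map sw.symm.toEmbedding)) :=
    fun S => diff_bound e σ hσ hΛ hΛW f h coef_h S
  have sum_sq : ∑ S, w S * msq S = ∑ S, w S * coef f S ^ 2 := by
    simp only [hsq, ← mul_div_assoc, ← Finset.sum_div, Finset.mul_sum]
    rw [Finset.sum_comm, div_eq_iff hTpos.ne', mul_comm, ← nsmul_eq_mul, ← Finset.sum_const]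
    refine Finset.sum_congr rfl fun u _ => ?_
    rw [← Equiv.sum_comp (shiftPerm e u).finsetCongr]
    refine Finset.sum_congr rfl fun S _ => ?_
    simp only [hG, Equiv.finsetCongr_apply, Finset.map_map]
    rw [show w (S.map (shiftPerm e u).toEmbedding) = w S from hwinv _ S]
    congr 3
    ext i
    simp
  have sum_w : ∑ S, w S * coef f S ^ 2 = (∑ i, infl f i) / 4 / Λ + mass f (Merges e) := by
    rw [infl_sum f hf, mul_div_assoc, mass, Finset.sum_filter]
    simp only [hw, add_mul, Finset.sum_add_distrib, ite_mul, one_mul, zero_mul]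
    congr 1
    simp only [Finset.mul_sum, Finset.sum_div]
    exact Finset.sum_congr rfl fun S _ => by ring
  have step2 : (avg fun x => (h x - h (x ∘ sw)) ^ 2) ≤
      4 * ((∑ i, infl f i) / 4 / Λ + mass f (Merges e)) := by
    have : (avg fun x => (h x - h (x ∘ sw)) ^ 2) =
        ∑ S, (coef h S - coef h (S.map sw.symm.toEmbedding)) ^ 2 := by
      have e1 : (fun x => (h x - h (x ∘ sw)) ^ 2) =
          fun x => (h x - h (x ∘ sw)) * (h x - h (x ∘ sw)) := funext fun x => pow_two _
      rw [e1, ← parseval]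
      refine Finset.sum_congr rfl fun S _ => ?_
      rw [coef_sub, coef_perm, pow_two]
    rw [this, ← sum_w]
    refine (Finset.sum_le_sum fun S _ => pointwise S).trans (le_of_eq ?_)
    have h2 : ∑ S, w S * msq (S.map sw.symm.toEmbedding) = ∑ S, w S * msq S := by
      rw [← Equiv.sum_comp sw.symm.finsetCongr fun S => w S * msq S]
      refine Finset.sum_congr rfl fun S _ => ?_
      simp only [Equiv.finsetCongr_apply]
      rw [hsw, hwinv']
    simp only [mul_add, Finset.sum_add_distrib, mul_assoc, ← Finset.mul_sum, h2, sum_sq]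
    ring
  have step3 : (avg fun x => (h (x ∘ sw) - f (x ∘ sw)) ^ 2) ≤ D := by
    rw [avg_perm sw fun x => (h x - f x) ^ 2]
    convert step1 using 2
    funext x
    ring
  have hswap : dis f (swapMap e σ) = avg fun x => (f x - f (x ∘ sw)) ^ 2 :=
    dis_eq_sq f hf sw
  have three := avg_three f h fun x => x ∘ sw
  have hm0 : 0 ≤ mass f (Merges e) := Finset.sum_nonneg fun S _ => sq_nonneg _
  have hi0 : 0 ≤ (∑ i, infl f i) / (Λ : ℝ) :=
    div_nonneg (Finset.sum_nonneg fun i _ =>
      div_nonneg (Finset.sum_nonneg fun x _ => abs_nonneg _) (pow_nonneg zero_le_two _))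
      (Nat.cast_nonneg _)
  have hD0 : 0 ≤ D := le_trans
    (div_nonneg (Finset.sum_nonneg fun x _ => sq_nonneg _) (pow_nonneg zero_le_two _)) step1
  rw [div_right_comm] at step2
  rw [hswap]
  calc (avg fun x => (f x - f (x ∘ sw)) ^ 2) ≤ _ := three
    _ ≤ 3 * D + 3 * (4 * ((∑ i, infl f i) / (Λ : ℝ) / 4 + mass f (Merges e))) + 3 * D := by
        gcongr
    _ ≤ 12 * (D + mass f (Merges e) + (∑ i, infl f i) / (Λ : ℝ)) := by
        linarith

end Vale.Agent.P238
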