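import Vale.Agent.P238.Interfaces

/-!
# P238: the explicit dyadic scales, telescoping of the merge counts
-/

namespace Vale.Agent.P238

open Finset

/-- Positions of `Fin (2 ^ m)` split into outer block, middle index, inner index. -/
def splitEquiv {m p w a : ℕ} (h : p + w + a = m) :
    Fin (2 ^ p) × Fin (2 ^ w) × Fin (2 ^ a) ≃ Fin (2 ^ m) :=
  (((Equiv.prodAssoc _ _ _).symm.trans (finProdFinEquiv.prodCongr (Equiv.refl _))).trans
    finProdFinEquiv).trans (finCongr (by rw [← pow_add, ← pow_add, h]))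

lemma splitEquiv_val {m p w a : ℕ} (h : p + w + a = m)
    (x : Fin (2 ^ p) × Fin (2 ^ w) × Fin (2 ^ a)) :
    (splitEquiv h x : ℕ) = x.2.2 + 2 ^ a * (x.2.1 + 2 ^ w * x.1) := by
  simp [splitEquiv, finProdFinEquiv]

lemma splitEquiv_div {m p w a : ℕ} (h : p + w + a = m)
    (x : Fin (2 ^ p) × Fin (2 ^ w) × Fin (2 ^ a)) :
    (splitEquiv h x : ℕ) / 2 ^ a = x.2.1 + 2 ^ w * x.1 := by
  rw [splitEquiv_val, Nat.add_mul_div_left _ _ (Nat.two_pow_pos a),
    Nat.div_eq_of_lt x.2.2.isLt, zero_add]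

lemma splitEquiv_div_outer {m p w a : ℕ} (h : p + w + a = m)
    (x : Fin (2 ^ p) × Fin (2 ^ w) × Fin (2 ^ a)) :
    (splitEquiv h x : ℕ) / 2 ^ (a + w) = x.1 := by
  rw [pow_add, ← Nat.div_div_eq_div_mul, splitEquiv_div,
    Nat.add_mul_div_left _ _ (Nat.two_pow_pos w), Nat.div_eq_of_lt x.2.1.isLt, zero_add]

lemma card_image_congr {ι A B : Type*} [DecidableEq A] [DecidableEq B] (S : Finset ι)
    (g : ι → A) (h : ι → B) (gh : ∀ i j, g i = g j ↔ h i = h j) :
    (S.image g).card = (S.image h).card := by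
  classical
  induction S using Finset.induction_on with
  | empty => simp
  | insert i S hi ih =>
    have : g i ∈ S.image g ↔ h i ∈ S.image h := by
      simp only [mem_image]
      exact exists_congr fun j => and_congr_right fun _ => gh j i
    by_cases hg : g i ∈ S.image g
    · rw [image_insert, image_insert, insert_eq_self.2 hg, insert_eq_self.2 (this.1 hg), ih]
    · rw [image_insert, image_insert, card_insert_of_notMem hg,
        card_insert_of_notMem (fun hh => hg (this.2 hh)), ih]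

/-- Occupancy of the blocks of size `2 ^ a`. -/
def occ {n : ℕ} (a : ℕ) (S : Finset (Fin n)) : ℕ :=
  (S.image fun i : Fin n => (i : ℕ) / 2 ^ a).card

lemma merges_iff {m p w a : ℕ} (h : p + w + a = m) (S : Finset (Fin (2 ^ m))) :
    Merges (splitEquiv h) S ↔ occ (a + w) S < occ a S := by
  have hv : ∀ i : Fin (2 ^ m), (i : ℕ) = splitEquiv h ((splitEquiv h).symm i) := fun i => by
    rw [Equiv.apply_symm_apply]
  have h1 : (S.image fun i => ((splitEquiv h).symm i).1).card = occ (a + w) S := by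
    refine card_image_congr S _ _ fun i j => ?_
    rw [hv i, hv j, splitEquiv_div_outer, splitEquiv_div_outer]
    simp [Fin.val_inj]
  have h2 : (S.image fun i => (((splitEquiv h).symm i).1, ((splitEquiv h).symm i).2.1)).card
      = occ a S := by
    refine card_image_congr S _ _ fun i j => ?_
    rw [hv i, hv j, splitEquiv_div, splitEquiv_div]
    generalize (splitEquiv h).symm i = x
    generalize (splitEquiv h).symm j = y
    simp only [Prod.mk.injEq]
    constructor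
    · rintro ⟨e1, e2⟩; rw [e1, e2]
    · intro e
      have e1 := congrArg (· / 2 ^ w) e
      simp only [Nat.add_mul_div_left _ _ (Nat.two_pow_pos w),
        Nat.div_eq_of_lt x.2.1.isLt, Nat.div_eq_of_lt y.2.1.isLt, zero_add] at e1
      exact ⟨Fin.ext e1, Fin.ext (by rw [e1] at e; omega)⟩
  unfold Merges
  rw [h1, h2]

lemma occ_antitone {n : ℕ} (S : Finset (Fin n)) {a b : ℕ} (hab : a ≤ b) : occ b S ≤ occ a S := by
  obtain ⟨d, rfl⟩ := Nat.exists_eq_add_of_le hab
  unfold occ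
  refine le_trans ?_ (Finset.card_image_le (f := fun k => k / 2 ^ d))
  refine le_of_eq ?_
  rw [Finset.image_image]
  congr 1
  refine Finset.image_congr fun i _ => ?_
  simp [pow_add, Nat.div_div_eq_div_mul]

lemma sum_drops_le {n : ℕ} (S : Finset (Fin n)) (r d K : ℕ) :
    ((Finset.range K).filter fun s => occ (r + s * d + d) S < occ (r + s * d) S).card
      + occ (r + K * d) S ≤ occ r S := by
  induction K with
  | zero => simp
  | succ K ih =>
    rw [Finset.range_add_one, Finset.filter_insert]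
    have hmono := occ_antitone S (show r + K * d ≤ r + K * d + d by omega)
    have hK : r + (K + 1) * d = r + K * d + d := by ring
    rw [hK]
    split_ifs with hh
    · rw [Finset.card_insert_of_notMem (by simp)]
      omega
    · omega

/-- Exchange neighbouring values `2 j` and `2 j + 1`. -/
def flipLow {w : ℕ} (hw : 0 < w) : Fin (2 ^ w) ≃ Fin (2 ^ w) :=
  Function.Involutive.toPerm
    (fun i => if hi : (i : ℕ) % 2 = 0 then
        ⟨(i : ℕ) + 1, by
          have : 2 ∣ 2 ^ w := dvd_pow_self 2 hw.ne'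
          omega⟩
      else ⟨(i : ℕ) - 1, lt_of_le_of_lt (Nat.sub_le _ _) i.isLt⟩)
    (fun i => by
      have : 2 ∣ 2 ^ w := dvd_pow_self 2 hw.ne'
      apply Fin.ext
      by_cases hi : (i : ℕ) % 2 = 0
      · have h' : ¬ ((i : ℕ) + 1) % 2 = 0 := by omega
        simp [hi, h']
      · have h' : ((i : ℕ) - 1) % 2 = 0 := by omega
        simp [hi, h']
        omega)

lemma flipLow_val {w : ℕ} (hw : 0 < w) (i : Fin (2 ^ w)) :
    (flipLow hw i : ℕ) = if (i : ℕ) % 2 = 0 then (i : ℕ) + 1 else (i : ℕ) - 1 := by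
  by_cases hi : (i : ℕ) % 2 = 0 <;> simp [flipLow, Function.Involutive.toPerm, hi]

lemma flipLow_step {w : ℕ} (hw : 0 < w) (i : Fin (2 ^ w)) :
    flipLow hw i = i + 1 ∨ flipLow hw i = i - 1 := by
  have h1 : (1 : ℕ) < 2 ^ w := Nat.one_lt_two_pow hw.ne'
  have h2 : 2 ∣ 2 ^ w := dvd_pow_self 2 hw.ne'
  by_cases hi : (i : ℕ) % 2 = 0
  · left
    apply Fin.ext
    rw [flipLow_val, if_pos hi, Fin.val_add, Fin.val_one', Nat.mod_eq_of_lt h1,
      Nat.mod_eq_of_lt (by omega)]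
  · right
    rw [eq_sub_iff_add_eq]
    apply Fin.ext
    rw [Fin.val_add, flipLow_val, if_neg hi, Fin.val_one', Nat.mod_eq_of_lt h1,
      Nat.mod_eq_of_lt (by omega)]
    omega

lemma swapMap_val {m p w a : ℕ} (hw : 0 < w) (h : p + w + a = m) (i : Fin (2 ^ m)) :
    ((swapMap (splitEquiv h) (flipLow hw) i : Fin (2 ^ m)) : ℕ) =
      if (i : ℕ) / 2 ^ a % 2 = 0 then (i : ℕ) + 2 ^ a else (i : ℕ) - 2 ^ a := by
  obtain ⟨x, rfl⟩ := (splitEquiv h).surjective i
  unfold swapMap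
  rw [Equiv.symm_apply_apply, splitEquiv_div, splitEquiv_val, splitEquiv_val]
  simp only [flipLow_val]
  have hpar : ((x.2.1 : ℕ) + 2 ^ w * x.1) % 2 = (x.2.1 : ℕ) % 2 := by
    have : 2 ∣ 2 ^ w * (x.1 : ℕ) := Dvd.dvd.mul_right (dvd_pow_self 2 hw.ne') _
    omega
  rw [hpar]
  by_cases hx : (x.2.1 : ℕ) % 2 = 0
  · rw [if_pos hx, if_pos hx]; ring
  · rw [if_neg hx, if_neg hx]
    obtain ⟨k, hk⟩ : ∃ k, (x.2.1 : ℕ) = k + 1 := ⟨(x.2.1 : ℕ) - 1, by omega⟩
    rw [hk, Nat.add_sub_cancel]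
    have : (x.2.2 : ℕ) + 2 ^ a * (k + 1 + 2 ^ w * x.1) =
        (x.2.2 : ℕ) + 2 ^ a * (k + 2 ^ w * x.1) + 2 ^ a := by ring
    omega

/-- The positions not wrapping around under `rhoMap`. -/
lemma rhoMap_monotoneOn {m p w a Λ : ℕ} (h : p + w + a = m)
    (t : Fin (2 ^ p) → Fin Λ) :
    StrictMonoOn (rhoMap (splitEquiv h) t)
      {i | ((((splitEquiv h).symm i).2.1 : ℕ) + t ((splitEquiv h).symm i).1 < 2 ^ w)} := by
  intro i hi j hj hij
  obtain ⟨x, rfl⟩ := (splitEquiv h).surjective i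
  obtain ⟨y, rfl⟩ := (splitEquiv h).surjective j
  simp only [Set.mem_ofPred_eq, Equiv.symm_apply_apply] at hi hj
  rw [Fin.lt_def] at hij ⊢
  unfold rhoMap
  simp only [Equiv.symm_apply_apply, splitEquiv_val]
  rw [splitEquiv_val, splitEquiv_val] at hij
  have hx : ((x.2.1 + Fin.ofNat (2 ^ w) (t x.1) : Fin (2 ^ w)) : ℕ) = x.2.1 + t x.1 := by
    rw [Fin.val_add, Fin.ofNat, Nat.add_mod_mod, Nat.mod_eq_of_lt hi]
  have hy : ((y.2.1 + Fin.ofNat (2 ^ w) (t y.1) : Fin (2 ^ w)) : ℕ) = y.2.1 + t y.1 := by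
    rw [Fin.val_add, Fin.ofNat, Nat.add_mod_mod, Nat.mod_eq_of_lt hj]
  rw [hx, hy]
  rcases lt_trichotomy (x.1 : ℕ) y.1 with hb | hb | hb
  · have h1 : (x.2.2 : ℕ) + 2 ^ a * (x.2.1 + t x.1 + 2 ^ w * x.1) <
        2 ^ a * (x.2.1 + t x.1 + 2 ^ w * x.1 + 1) := by
      rw [Nat.mul_succ]; have := x.2.2.isLt; omega
    refine lt_of_lt_of_le h1 (le_trans (Nat.mul_le_mul_left _ ?_) (Nat.le_add_left _ _))
    have h2 : 2 ^ w * (x.1 : ℕ) + 2 ^ w ≤ 2 ^ w * (y.1 : ℕ) := by
      calc 2 ^ w * (x.1 : ℕ) + 2 ^ w = 2 ^ w * ((x.1 : ℕ) + 1) := by ring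
        _ ≤ _ := Nat.mul_le_mul_left _ hb
    omega
  · rw [hb] at hij ⊢
    have ht : (t x.1 : ℕ) = t y.1 := by rw [Fin.ext hb]
    rw [ht]
    simp only [Nat.mul_add] at hij ⊢
    omega
  · exfalso
    have h1 : (y.2.2 : ℕ) + 2 ^ a * (y.2.1 + 2 ^ w * y.1) <
        2 ^ a * (y.2.1 + 2 ^ w * y.1 + 1) := by
      rw [Nat.mul_succ]; have := y.2.2.isLt; omega
    have h2 : 2 ^ w * (y.1 : ℕ) + 2 ^ w ≤ 2 ^ w * (x.1 : ℕ) := by
      calc 2 ^ w * (y.1 : ℕ) + 2 ^ w = 2 ^ w * ((y.1 : ℕ) + 1) := by ring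
        _ ≤ _ := Nat.mul_le_mul_left _ hb
    have h3 : 2 ^ a * ((y.2.1 : ℕ) + 2 ^ w * (y.1 : ℕ) + 1) ≤
        2 ^ a * ((x.2.1 : ℕ) + 2 ^ w * (x.1 : ℕ)) :=
      Nat.mul_le_mul_left _ (by have := y.2.1.isLt; omega)
    omega

/-- At most one position in `2 ^ w / Λ` wraps around. -/
lemma rhoMap_wrap_card {m p w a Λ : ℕ} (h : p + w + a = m) (t : Fin (2 ^ p) → Fin Λ) :
    (univ.filter fun i => ¬ ((((splitEquiv h).symm i).2.1 : ℕ) + t ((splitEquiv h).symm i).1 < 2 ^ w)).card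
      ≤ 2 ^ p * Λ * 2 ^ a := by
  set G : Fin (2 ^ m) → Fin (2 ^ p) × ℕ × Fin (2 ^ a) := fun i =>
    (((splitEquiv h).symm i).1, 2 ^ w - 1 - ((splitEquiv h).symm i).2.1, ((splitEquiv h).symm i).2.2)
    with hG
  calc _ ≤ ((univ : Finset (Fin (2 ^ p))) ×ˢ ((Finset.range Λ) ×ˢ (univ : Finset (Fin (2 ^ a))))).card := by
        refine Finset.card_le_card_of_injOn G ?_ ?_
        · intro i hi
          simp only [coe_filter, mem_univ, true_and, Set.mem_ofPred_eq, not_lt] at hi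
          simp only [hG, coe_product, coe_univ, coe_range, Set.mem_prod, Set.mem_univ, Set.mem_Iio,
            true_and, and_true]
          have := (t ((splitEquiv h).symm i).1).isLt
          omega
        · intro i _ j _ hij
          simp only [hG, Prod.mk.injEq] at hij
          apply (splitEquiv h).symm.injective
          refine Prod.ext hij.1 (Prod.ext (Fin.ext ?_) hij.2.2)
          have := ((splitEquiv h).symm i).2.1.isLt
          have := ((splitEquiv h).symm j).2.1.isLt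
          omega
    _ = _ := by simp [Finset.card_product, mul_assoc]

end Vale.Agent.P238
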